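import Vale.Agent.P119.EN.Real2
import Vale.Agent.P119.RB.LemmaH
import Vale.Agent.P119.RB.Birth6

/-!
# P119, block ENERGY: Lemma E for the exposed sources (`helper456`)

* `AX Φ ε L hΦ hε W t`: the exposed sources of the world `W` at the time `t` (`RB.sys`, `XR`);
* `DD Φ ε L hΦ hε W t = ∑ c ∈ AX t, (1 + wt c)`, `wt c` the energy of `c` at its exposure;
* `sum_ghost_sq_le`, `sum_ghost_le`: the M-velocities of the exposed living sources;
* `sum_real_sq_le`, `sum_real_le`: the real velocities of the exposed sources.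
-/

open MeasureTheory Filter Topology Set
open scoped NNReal

noncomputable section

namespace Vale.Agent.P119.EN

open KU M M.CTree RW RB FB

variable {Φ : E3 → ℝ} {ε : ℝ} {L : ℕ}

open Classical in
/-- The exposed sources. -/
def AX (Φ : E3 → ℝ) (ε : ℝ) (L : ℕ) (hΦ : IsPotential Φ) (hε : 0 < ε) (W : Finset Src) (t : ℝ) :
    Finset Src :=
  W.filter fun a => (sys Φ ε L (XR Φ ε) hΦ hε (XR_isFam hΦ hε)).Exp W a t

theorem mem_AX {hΦ : IsPotential Φ} {hε : 0 < ε} {W : Finset Src} {t : ℝ} {a : Src} :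
    a ∈ AX Φ ε L hΦ hε W t ↔ (sys Φ ε L (XR Φ ε) hΦ hε (XR_isFam hΦ hε)).Exp W a t := by
  classical
  unfold AX
  rw [Finset.mem_filter]
  exact ⟨fun h => h.2, fun h => ⟨h.mem, h⟩⟩

theorem xr_eq (W : Finset Src) : xr Φ ε W = XR Φ ε W := rfl

/-- The world of the sources is real. -/
theorem isReal_XR (hΦ : IsPotential Φ) (hε : 0 < ε) (W : Finset Src) :
    IsReal Φ ε W (XR Φ ε W) := by
  obtain ⟨k₀, -, h⟩ := XR_spec hΦ hε W
  exact ⟨k₀, fun k hk => (h k hk).1⟩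

/-- **The exposed sources satisfy the assumptions of Lemma E.** -/
theorem expo2 (hΦ : IsPotential Φ) (hε : 0 < ε) {W : Finset Src} (hW : ∀ a ∈ W, 0 ≤ a.1) :
    Expo2 Φ ε L W (AX Φ ε L hΦ hε W) where
  nonneg := hW
  sub t c hc := (mem_AX.1 hc).mem
  born t c hc := exp_birth_le (mem_AX.1 hc)
  mono s t hst c hc := mem_AX.2 ((mem_AX.1 hc).mono hst)
  right t := by
    have h1 : ∀ᶠ s in 𝓝[>] t, ∀ c ∈ W, c ∉ AX Φ ε L hΦ hε W t → c ∉ AX Φ ε L hΦ hε W s := by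
      rw [Filter.eventually_all_finset]
      intro c _
      by_cases hc : c ∈ AX Φ ε L hΦ hε W t
      · exact Eventually.of_forall fun _ h => absurd hc h
      · have h2 : t ∉ {s | (sys Φ ε L (XR Φ ε) hΦ hε (XR_isFam hΦ hε)).Exp W c s} :=
          fun h => hc (mem_AX.2 h)
        obtain ⟨δ, hδ, h3⟩ := right_of_dclosed (Sys.exp_closed W c) h2
        filter_upwards [Ioo_mem_nhdsGT (show t < t + δ by linarith)] with s hs _ hcs
        exact h3 s hs.1.le hs.2 (mem_AX.1 hcs)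
    filter_upwards [h1, self_mem_nhdsWithin] with s hs hst
    have hst : t < s := hst
    ext c
    constructor
    · intro hc
      by_contra hcon
      exact hs c (mem_AX.1 hc).mem hcon hc
    · intro hc
      exact mem_AX.2 ((mem_AX.1 hc).mono hst.le)
  bad t c h := mem_AX.2 (exp_of_badi h le_rfl)
  mcon t c b h hb := mem_AX.2 (exp_of_con (mem_AX.1 hb) (Or.inl h))
  rcon t c hc b hb hne hct h := mem_AX.2 (exp_of_con (mem_AX.1 hb)
    (Or.inr ⟨hne, hc, (mem_AX.1 hb).mem, (hW c hc).trans hct, hct, exp_birth_le (mem_AX.1 hb), h⟩))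
  lemH t c hc hct hn := real_eq_mpos hW (isReal_XR hΦ hε W) hc (fun h => hn (mem_AX.2 h)) le_rfl

/-- **The dyadic functional**: `∑` over the exposed sources of `1 +` the energy at the exposure. -/
def DD (Φ : E3 → ℝ) (ε : ℝ) (L : ℕ) (hΦ : IsPotential Φ) (hε : 0 < ε) (W : Finset Src) (t : ℝ) :
    ℝ :=
  ∑ c ∈ AX Φ ε L hΦ hε W t, (1 + wt Φ ε L W (AX Φ ε L hΦ hε W) c)

theorem DD_nonneg (hΦ : IsPotential Φ) (hε : 0 < ε) (W : Finset Src) (t : ℝ) :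
    0 ≤ DD Φ ε L hΦ hε W t :=
  Finset.sum_nonneg fun c _ => by
    have := wt_nonneg (Φ := Φ) (ε := ε) (L := L) W (AX Φ ε L hΦ hε W) c
    linarith

theorem AX_mono (hΦ : IsPotential Φ) (hε : 0 < ε) {W : Finset Src} {s t : ℝ} (hst : s ≤ t) :
    AX Φ ε L hΦ hε W s ⊆ AX Φ ε L hΦ hε W t := fun _ hc => mem_AX.2 ((mem_AX.1 hc).mono hst)

theorem DD_mono (hΦ : IsPotential Φ) (hε : 0 < ε) {W : Finset Src} {s t : ℝ} (hst : s ≤ t) :
    DD Φ ε L hΦ hε W s ≤ DD Φ ε L hΦ hε W t :=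
  Finset.sum_le_sum_of_subset_of_nonneg (AX_mono hΦ hε hst) fun c _ _ => by
    have := wt_nonneg (Φ := Φ) (ε := ε) (L := L) W (AX Φ ε L hΦ hε W) c
    linarith

theorem card_le_DD (hΦ : IsPotential Φ) (hε : 0 < ε) (W : Finset Src) (t : ℝ) :
    ((AX Φ ε L hΦ hε W t).card : ℝ) ≤ DD Φ ε L hΦ hε W t := by
  have h : ∑ c ∈ AX Φ ε L hΦ hε W t, (1 : ℝ) ≤ DD Φ ε L hΦ hε W t :=
    Finset.sum_le_sum fun c _ => by
      have := wt_nonneg (Φ := Φ) (ε := ε) (L := L) W (AX Φ ε L hΦ hε W) c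
      linarith
  simpa using h

/-- The sum of a bound over the exposed sources. -/
theorem sum_bound (hΦ : IsPotential Φ) (hε : 0 < ε) (W : Finset Src) {s t : ℝ} (hst : s ≤ t)
    {K : ℝ} (hK : 0 ≤ K) :
    ∑ c ∈ AX Φ ε L hΦ hε W s, (wt Φ ε L W (AX Φ ε L hΦ hε W) c + K) ≤
      (1 + K) * DD Φ ε L hΦ hε W t := by
  refine le_trans ?_ (mul_le_mul_of_nonneg_left (DD_mono (L := L) hΦ hε hst) (by linarith))
  unfold DD
  rw [Finset.mul_sum]
  refine Finset.sum_le_sum fun c _ => ?_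
  have := wt_nonneg (Φ := Φ) (ε := ε) (L := L) W (AX Φ ε L hΦ hε W) c
  nlinarith

/-- From squares to velocities. -/
theorem sum_one_add_le {α : Type*} {S : Finset α} {f : α → ℝ} {D K : ℝ}
    (h : ∑ c ∈ S, f c ^ 2 ≤ K * D) (hc : (S.card : ℝ) ≤ D) :
    ∑ c ∈ S, (1 + f c) ≤ (2 + K) * D := by
  have h1 : ∑ c ∈ S, (1 + f c) ≤ ∑ c ∈ S, (2 + f c ^ 2) := by
    refine Finset.sum_le_sum fun c _ => ?_
    nlinarith [sq_nonneg (f c - 1), sq_nonneg (f c)]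
  have h2 : ∑ c ∈ S, (2 + f c ^ 2) = 2 * S.card + ∑ c ∈ S, f c ^ 2 := by
    rw [Finset.sum_add_distrib, Finset.sum_const, nsmul_eq_mul, mul_comm]
  rw [h2] at h1
  linarith

/-- **Lemma E for the M-paths**: the velocities of the exposed living sources. -/
theorem sum_ghost_sq_le (hΦ : IsPotential Φ) {B : ℝ} (hB : StableWith Φ B) (hε : 0 < ε)
    {W : Finset Src} (hW : ∀ a ∈ W, 0 ≤ a.1) {s t : ℝ} (hst : s ≤ t) :
    ∑ c ∈ (AX Φ ε L hΦ hε W s).filter (fun c => stat Φ ε L (W : Set Src) c s ≠ none),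
      ‖(mpos Φ ε L (W : Set Src) c s).2‖ ^ 2 ≤ (1 + 2 * B) * DD Φ ε L hΦ hε W t := by
  have h1 := ((expo2 (L := L) hΦ hε hW).expo hΦ hε).ghost_vel hΦ hB hε s
  refine le_trans ?_ (h1.trans (sum_bound hΦ hε W hst (by linarith [hB.1])))
  rw [Finset.sum_filter]
  refine Finset.sum_le_sum fun c _ => ?_
  split_ifs with h2
  · exact (vs_mpos h2).ge
  · rw [not_not] at h2
    exact (vs_none h2).ge

theorem sum_ghost_le (hΦ : IsPotential Φ) {B : ℝ} (hB : StableWith Φ B) (hε : 0 < ε)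
    {W : Finset Src} (hW : ∀ a ∈ W, 0 ≤ a.1) {s t : ℝ} (hst : s ≤ t) :
    ∑ c ∈ (AX Φ ε L hΦ hε W s).filter (fun c => stat Φ ε L (W : Set Src) c s ≠ none),
      (1 + ‖(mpos Φ ε L (W : Set Src) c s).2‖) ≤ (3 + 2 * B) * DD Φ ε L hΦ hε W t := by
  have h1 := sum_one_add_le (sum_ghost_sq_le (L := L) hΦ hB hε hW hst)
    ((Nat.cast_le.2 (Finset.card_le_card (Finset.filter_subset _ _))).trans
      ((card_le_DD (L := L) hΦ hε W s).trans (DD_mono hΦ hε hst)))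
  exact h1.trans (le_of_eq (by ring))

open Classical in
/-- **Lemma E**: the real velocities of the exposed sources. -/
theorem sum_real_sq_le (hΦ : IsPotential Φ) {B : ℝ} (hB : StableWith Φ B) (hε : 0 < ε)
    {W : Finset Src} (hW : ∀ a ∈ W, 0 ≤ a.1) (hexcl : ∀ a ∈ W, ∀ a' ∈ W, a ≠ a' → a.1 = 0 →
      a'.1 = 0 → ε ≤ ‖a.2.1.1 - a'.2.1.1‖) {s t : ℝ} (hst : s ≤ t) :
    ∑ c ∈ AX Φ ε L hΦ hε W s, ‖(XR Φ ε W s c).2‖ ^ 2 ≤
      (1 + 2 * B * (1 + 2 * ((W.filter fun a => a.1 ≠ 0).card : ℝ))) * DD Φ ε L hΦ hε W t := by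
  have h1 := (expo2 (L := L) hΦ hε hW).real_vel hΦ hB hε hexcl s
  refine h1.trans (sum_bound hΦ hε W hst ?_)
  have := hB.1
  positivity

open Classical in
theorem sum_real_le (hΦ : IsPotential Φ) {B : ℝ} (hB : StableWith Φ B) (hε : 0 < ε)
    {W : Finset Src} (hW : ∀ a ∈ W, 0 ≤ a.1) (hexcl : ∀ a ∈ W, ∀ a' ∈ W, a ≠ a' → a.1 = 0 →
      a'.1 = 0 → ε ≤ ‖a.2.1.1 - a'.2.1.1‖) {s t : ℝ} (hst : s ≤ t) :
    ∑ c ∈ AX Φ ε L hΦ hε W s, (1 + ‖(XR Φ ε W s c).2‖) ≤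
      (3 + 2 * B * (1 + 2 * ((W.filter fun a => a.1 ≠ 0).card : ℝ))) * DD Φ ε L hΦ hε W t := by
  have h1 := sum_one_add_le (sum_real_sq_le (L := L) hΦ hB hε hW hexcl hst)
    ((card_le_DD (L := L) hΦ hε W s).trans (DD_mono hΦ hε hst))
  exact h1.trans (le_of_eq (by ring))

end Vale.Agent.P119.EN
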