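import Vale.Agent.P119.M.Live
import Vale.Agent.P119.Real.Energy

/-!
# P119, block ENERGY: the energy of the exposed ghosts (`helper456`)

`A t` is the set of exposed labels of the finite world `W` at time `t` (structure `Expo`).
`wt c` is the energy of the label `c` at its first exposed time: with `T` the tree of `c` just before
(`PS`, `ptree`), `cw T τ` is the square of the velocity of `T`, or the sum of the squares of the
velocities of the two incoming lines if `T` is colliding at time `τ`.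

* `ghost_energy`: the sum over the exposed living labels of the squares of the velocities of the
  lines of the M-world is at most `∑ c ∈ A t, wt c`;
* `ghost_vel`: the same for the M-paths, with an error `2 B` per label.
-/

open Filter Topology Set
open scoped NNReal

noncomputable section

namespace Vale.Agent.P119.EN

open KU M M.CTree

/-! ### General lemmas -/

/-- Induction in time. -/
theorem time_ind {P : ℝ → Prop} {a : ℝ}
    (hstep : ∀ t, a ≤ t → (∀ s, a ≤ s → s < t → P s) → P t)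
    (hright : ∀ t, a ≤ t → P t → ∀ᶠ s in 𝓝[>] t, P s) : ∀ t, a ≤ t → P t := by
  by_contra hcon
  push Not at hcon
  obtain ⟨t0, ht0, hP⟩ := hcon
  have hne : {t | a ≤ t ∧ ¬P t}.Nonempty := ⟨t0, ht0, hP⟩
  have hb : BddBelow {t | a ≤ t ∧ ¬P t} := ⟨a, fun s hs => hs.1⟩
  have hm : a ≤ sInf {t | a ≤ t ∧ ¬P t} := le_csInf hne fun s hs => hs.1
  have h1 : P (sInf {t | a ≤ t ∧ ¬P t}) := hstep _ hm fun s hs hlt => by
    by_contra h
    exact absurd (csInf_le hb ⟨hs, h⟩) (not_le.2 hlt)
  obtain ⟨u, hu, h2⟩ := mem_nhdsGT_iff_exists_Ioo_subset.1 (hright _ hm h1)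
  obtain ⟨s, hs, hlt⟩ := exists_lt_of_csInf_lt hne hu
  have h3 := csInf_le hb hs
  have h4 : sInf {t | a ≤ t ∧ ¬P t} ≠ s := fun h => hs.2 (h ▸ h1)
  exact hs.2 (h2 ⟨lt_of_le_of_ne h3 h4, hlt⟩)

/-- Sums over a set with an involution. -/
theorem sum_le_of_swap {ι : Type*} (C : Finset ι) (p : ι → ι) (hp : ∀ c ∈ C, p c ∈ C)
    (hpp : ∀ c ∈ C, p (p c) = c) {f g : ι → ℝ}
    (h : ∀ c ∈ C, f c + f (p c) ≤ g c + g (p c)) : ∑ c ∈ C, f c ≤ ∑ c ∈ C, g c := by
  have e : ∀ f : ι → ℝ, ∑ c ∈ C, f (p c) = ∑ c ∈ C, f c := fun f =>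
    Finset.sum_nbij' p p hp hp hpp hpp (fun _ _ => rfl)
  have h1 := Finset.sum_le_sum h
  rw [Finset.sum_add_distrib, Finset.sum_add_distrib, e, e] at h1
  linarith

variable {Φ : E3 → ℝ} {ε : ℝ} {L : ℕ}

/-! ### Weights of trees -/

/-- The square of the velocity of the line of the root of `T` (of the incoming line during the last
collision). -/
def mw (Φ : E3 → ℝ) (ε : ℝ) : CTree → ℝ → ℝ
  | leaf σ, _ => ‖σ.2.1.2‖ ^ 2
  | node x y, t => if t < ext Φ ε (node x y) then ‖(ln Φ ε x).2‖ ^ 2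
      else ‖(ln Φ ε (node x y)).2‖ ^ 2

/-- The energy with which the root of `T` is exposed. -/
def cw (Φ : E3 → ℝ) (ε : ℝ) : CTree → ℝ → ℝ
  | leaf σ, _ => ‖σ.2.1.2‖ ^ 2
  | node x y, t => if t < ext Φ ε (node x y) then ‖(ln Φ ε x).2‖ ^ 2 + ‖(ln Φ ε y).2‖ ^ 2
      else ‖(ln Φ ε (node x y)).2‖ ^ 2

theorem mw_node (x y : CTree) (t : ℝ) : mw Φ ε (node x y) t =
    if t < ext Φ ε (node x y) then ‖(ln Φ ε x).2‖ ^ 2 else ‖(ln Φ ε (node x y)).2‖ ^ 2 := rfl

theorem cw_node (x y : CTree) (t : ℝ) : cw Φ ε (node x y) t =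
    if t < ext Φ ε (node x y) then ‖(ln Φ ε x).2‖ ^ 2 + ‖(ln Φ ε y).2‖ ^ 2
      else ‖(ln Φ ε (node x y)).2‖ ^ 2 := rfl

theorem mw_nonneg (T : CTree) (t : ℝ) : 0 ≤ mw Φ ε T t := by
  cases T with
  | leaf σ => exact sq_nonneg _
  | node x y =>
    rw [mw_node]
    split_ifs <;> positivity

theorem cw_nonneg (T : CTree) (t : ℝ) : 0 ≤ cw Φ ε T t := by
  cases T with
  | leaf σ => exact sq_nonneg _
  | node x y =>
    rw [cw_node]
    split_ifs <;> positivity

theorem mw_le_cw (T : CTree) (t : ℝ) : mw Φ ε T t ≤ cw Φ ε T t := by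
  cases T with
  | leaf σ => exact le_rfl
  | node x y =>
    rw [mw_node, cw_node]
    split_ifs
    · exact le_add_of_nonneg_right (sq_nonneg _)
    · exact le_rfl

theorem mw_of_ext_le {T : CTree} {t : ℝ} (h : ext Φ ε T ≤ t) :
    mw Φ ε T t = ‖(ln Φ ε T).2‖ ^ 2 := by
  cases T with
  | leaf σ => rfl
  | node x y =>
    rw [mw_node, if_neg (not_lt.2 h)]

theorem cw_of_ext_le {T : CTree} {t : ℝ} (h : ext Φ ε T ≤ t) :
    cw Φ ε T t = ‖(ln Φ ε T).2‖ ^ 2 := by
  cases T with
  | leaf σ => rfl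
  | node x y =>
    rw [cw_node, if_neg (not_lt.2 h)]

theorem mw_node_of_lt {x y : CTree} {t : ℝ} (h : t < ext Φ ε (node x y)) :
    mw Φ ε (node x y) t = ‖(ln Φ ε x).2‖ ^ 2 := by
  rw [mw_node, if_pos h]

theorem cw_node_of_lt {x y : CTree} {t : ℝ} (h : t < ext Φ ε (node x y)) :
    cw Φ ε (node x y) t = ‖(ln Φ ε x).2‖ ^ 2 + ‖(ln Φ ε y).2‖ ^ 2 := by
  rw [cw_node, if_pos h]

/-- `mw` is right-continuous. -/
theorem mw_right (T : CTree) (t : ℝ) : ∀ᶠ s in 𝓝[>] t, mw Φ ε T s = mw Φ ε T t := by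
  cases T with
  | leaf σ => exact Eventually.of_forall fun _ => rfl
  | node x y =>
    by_cases h : t < ext Φ ε (node x y)
    · filter_upwards [Ioo_mem_nhdsGT h] with s hs
      rw [mw_node_of_lt h, mw_node_of_lt hs.2]
    · filter_upwards [self_mem_nhdsWithin] with s hs
      rw [mw_of_ext_le (not_lt.1 h), mw_of_ext_le ((not_lt.1 h).trans (le_of_lt hs))]

/-! ### The tree just before a time -/

/-- `T` is the tree of `c` just before the time `t` (or at its birth). -/
def PS (Φ : E3 → ℝ) (ε : ℝ) (L : ℕ) (W : Set Src) (c : Src) (t : ℝ) (T : CTree) : Prop :=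
  T.root = c ∧ live Φ ε L W T t ∧ (T = leaf c ∨ sig Φ ε T < t)

theorem PS.unique (hΦ : IsPotential Φ) (hε : 0 < ε) {W : Set Src} (hW : W.Finite) {c : Src}
    {t : ℝ} {T T' : CTree} (h : PS Φ ε L W c t T) (h' : PS Φ ε L W c t T') : T = T' := by
  have hb : c.1 ≤ t := by
    have h1 := root_birth_le_sig hΦ hε h.2.1.ok
    rw [h.1] at h1
    exact h1.trans h.2.1.sig_le
  rcases hb.lt_or_eq with hlt | heq
  · have key : ∀ S, PS Φ ε L W c t S → sig Φ ε S < t := by
      rintro S ⟨-, -, h3 | h3⟩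
      · rw [h3]; exact hlt
      · exact h3
    have h1 : max (sig Φ ε T) (sig Φ ε T') < t := max_lt (key T h) (key T' h')
    exact lives_unique hΦ hε hW (h.2.1.lives_of_lt h1 (le_max_left _ _))
      (h'.2.1.lives_of_lt h1 (le_max_right _ _)) (h.1.trans h'.1.symm)
  · have key : ∀ S, PS Φ ε L W c t S → S = leaf c := by
      rintro S ⟨h1, h2, h3 | h3⟩
      · exact h3
      · have h4 := root_birth_le_sig hΦ hε h2.ok
        rw [h1, heq] at h4
        exact absurd h3 (not_lt.2 h4)
    rw [key T h, key T' h']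

open Classical in
/-- The tree of `c` just before `t`. -/
def ptree (Φ : E3 → ℝ) (ε : ℝ) (L : ℕ) (W : Set Src) (c : Src) (t : ℝ) : CTree :=
  if h : ∃ T, PS Φ ε L W c t T then h.choose else leaf c

theorem ptree_eq (hΦ : IsPotential Φ) (hε : 0 < ε) {W : Set Src} (hW : W.Finite) {c : Src}
    {t : ℝ} {T : CTree} (h : PS Φ ε L W c t T) : ptree Φ ε L W c t = T := by
  have h1 : ∃ T, PS Φ ε L W c t T := ⟨T, h⟩
  unfold ptree
  rw [dif_pos h1]
  exact PS.unique hΦ hε hW h1.choose_spec h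

/-- The tree just before `t` of a particle which is alive at `t`. -/
theorem exists_PS (hΦ : IsPotential Φ) (hε : 0 < ε) {W : Set Src} (hW : W.Finite) {c : Src}
    {t : ℝ} {S : CTree} (h : stat Φ ε L W c t = some S) :
    ∃ T, PS Φ ε L W c t T ∧
      (S = T ∨ ∃ y, S = node T y ∧ sig Φ ε S = t ∧ ext Φ ε T < t ∧ t < ext Φ ε S) ∧
      (c.1 < t → ∀ᶠ s in 𝓝[<] t, stat Φ ε L W c s = some T ∧ (ext Φ ε T ≤ s ∨ t ≤ ext Φ ε T)) := by
  have h0 := h
  rw [stat_eq_some_iff hΦ hε hW] at h
  obtain ⟨hr, hl⟩ := h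
  have hstat : ∀ s, s ≤ t → c.1 ≤ s → stat Φ ε L W c s = some (cur Φ ε S s) := fun s h1 h2 =>
    stat_cur hΦ hε hW h0 h1 h2
  have hext : ∀ T : CTree, ∀ᶠ s in 𝓝[<] t, ext Φ ε T ≤ s ∨ t ≤ ext Φ ε T := by
    intro T
    by_cases h1 : t ≤ ext Φ ε T
    · exact Eventually.of_forall fun _ => Or.inr h1
    · filter_upwards [Ioo_mem_nhdsLT (not_le.1 h1)] with s hs using Or.inl hs.1.le
  cases S with
  | leaf σ =>
    change σ = c at hr
    subst hr
    refine ⟨leaf σ, ⟨rfl, hl.live, Or.inl rfl⟩, Or.inl rfl, fun hlt => ?_⟩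
    filter_upwards [Ioo_mem_nhdsLT hlt, hext (leaf σ)] with s hs he
    exact ⟨hstat s hs.2.le hs.1.le, he⟩
  | node a b =>
    rcases hl.sig_le.lt_or_eq with hlt | heq
    · refine ⟨node a b, ⟨hr, hl.live, Or.inr hlt⟩, Or.inl rfl, fun hct => ?_⟩
      filter_upwards [Ioo_mem_nhdsLT hct, Ioo_mem_nhdsLT hlt, hext (node a b)] with s hs hs' he
      refine ⟨?_, he⟩
      rw [hstat s hs.2.le hs.1.le, cur_of_sig_le hs'.1.le]
    · have h1 := live_left hΦ hε hW hl.live
      rw [heq] at h1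
      have h2 := (alive_iff_live hΦ hε hW).1 h1
      have h3 : ext Φ ε a < t := by
        have := hl.ok.2.2.2.2.2.1
        change ext Φ ε a < sig Φ ε (node a b) at this
        rwa [heq] at this
      have h4 : sig Φ ε a ≤ ext Φ ε a := sig_le_ext hΦ hε hl.ok.1
      refine ⟨a, ⟨hr, h2.1, Or.inr (h4.trans_lt h3)⟩, Or.inr ⟨b, rfl, heq, h3, ?_⟩, fun hct => ?_⟩
      · have := sig_lt_ext hΦ hε hl.ok
        rwa [heq] at this
      · filter_upwards [Ioo_mem_nhdsLT hct, Ioo_mem_nhdsLT h3, hext a] with s hs hs' he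
        refine ⟨?_, he⟩
        rw [hstat s hs.2.le hs.1.le, cur_of_lt_sig (by rw [heq]; exact hs.2),
          cur_of_sig_le (h4.trans hs'.1.le)]

/-! ### The exposed sets -/

/-- What is used of the exposed sets. -/
structure Expo (Φ : E3 → ℝ) (ε : ℝ) (L : ℕ) (W : Finset Src) (A : ℝ → Finset Src) : Prop where
  nonneg : ∀ c ∈ W, 0 ≤ c.1
  sub : ∀ t, A t ⊆ W
  born : ∀ t, ∀ c ∈ A t, c.1 ≤ t
  mono : ∀ s t, s ≤ t → A s ⊆ A t
  right : ∀ t, ∀ᶠ s in 𝓝[>] t, A s = A t
  partner : ∀ t, ∀ c ∈ A t, ∀ x y, stat Φ ε L W c t = some (node x y) →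
    t < ext Φ ε (node x y) → y.root ∈ A t

/-- The first exposed time. -/
def tau (A : ℝ → Finset Src) (c : Src) : ℝ := sInf {t | c ∈ A t}

/-- The energy of the label `c` when it is exposed. -/
def wt (Φ : E3 → ℝ) (ε : ℝ) (L : ℕ) (W : Finset Src) (A : ℝ → Finset Src) (c : Src) : ℝ :=
  cw Φ ε (ptree Φ ε L W c (tau A c)) (tau A c)

theorem wt_nonneg (W : Finset Src) (A : ℝ → Finset Src) (c : Src) : 0 ≤ wt Φ ε L W A c :=
  cw_nonneg _ _

/-- The square of the velocity of the line of `c` (`0` if it is dead). -/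
def mv (Φ : E3 → ℝ) (ε : ℝ) (L : ℕ) (W : Finset Src) (c : Src) (t : ℝ) : ℝ :=
  match stat Φ ε L W c t with
  | none => 0
  | some T => mw Φ ε T t

theorem mv_none {W : Finset Src} {c : Src} {t : ℝ} (h : stat Φ ε L W c t = none) :
    mv Φ ε L W c t = 0 := by
  unfold mv; rw [h]

theorem mv_some {W : Finset Src} {c : Src} {t : ℝ} {T : CTree} (h : stat Φ ε L W c t = some T) :
    mv Φ ε L W c t = mw Φ ε T t := by
  unfold mv; rw [h]

open Classical in
/-- The labels exposed before `t`. -/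
def before (W : Finset Src) (A : ℝ → Finset Src) (t : ℝ) : Finset Src :=
  W.filter fun c => ∃ s < t, c ∈ A s

theorem mem_before {W : Finset Src} {A : ℝ → Finset Src} {t : ℝ} {c : Src} :
    c ∈ before W A t ↔ c ∈ W ∧ ∃ s < t, c ∈ A s := by
  classical
  unfold before
  exact Finset.mem_filter

/-- The partner of a colliding label. -/
def prt (o : Option CTree) (c : Src) : Src :=
  match o with
  | some (node _ y) => y.root
  | _ => c

theorem prt_node (x y : CTree) (c : Src) : prt (some (node x y)) c = y.root := rfl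

namespace Expo

variable {W : Finset Src} {A : ℝ → Finset Src} {t : ℝ} {c : Src}

theorem eventually_before (h : Expo Φ ε L W A) (t : ℝ) :
    ∀ᶠ s in 𝓝[<] t, A s = before W A t := by
  classical
  have h1 : ∀ᶠ s in 𝓝[<] t, ∀ c ∈ W, (∃ s < t, c ∈ A s) → c ∈ A s := by
    rw [Filter.eventually_all_finset]
    intro c _
    by_cases hc : ∃ s < t, c ∈ A s
    · obtain ⟨s₀, hs₀, hc⟩ := hc
      filter_upwards [Ioo_mem_nhdsLT hs₀] with s hs _ using h.mono _ _ hs.1.le hc
    · exact Eventually.of_forall fun _ h => absurd h hc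
  filter_upwards [h1, self_mem_nhdsWithin] with s hs hst
  ext c
  rw [mem_before]
  exact ⟨fun hc => ⟨h.sub _ hc, s, hst, hc⟩, fun hc => hs c hc.1 hc.2⟩

theorem before_subset (h : Expo Φ ε L W A) (t : ℝ) : before W A t ⊆ A t := by
  intro c hc
  obtain ⟨-, s, hs, hc⟩ := mem_before.1 hc
  exact h.mono _ _ hs.le hc

theorem tau_eq (h : Expo Φ ε L W A) (hc : c ∈ A t) (hc' : c ∉ before W A t) : tau A c = t := by
  refine IsLeast.csInf_eq ⟨hc, fun s hs => ?_⟩
  by_contra hcon
  exact hc' (mem_before.2 ⟨h.sub _ hc, s, not_le.1 hcon, hs⟩)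

theorem mv_right (h : Expo Φ ε L W A) (hΦ : IsPotential Φ) (hε : 0 < ε) (hc : c ∈ A t) :
    ∀ᶠ s in 𝓝[>] t, mv Φ ε L W c s = mv Φ ε L W c t := by
  rcases hs : stat Φ ε L W c t with _ | T
  · filter_upwards [self_mem_nhdsWithin] with s hst
    rw [mv_none hs, mv_none (stat_none_mono hΦ hε W.finite_toSet hs (le_of_lt hst) (h.born _ _ hc))]
  · obtain ⟨u, hu, h1⟩ := stat_right hΦ hε W.finite_toSet hs
    filter_upwards [Ioo_mem_nhdsGT hu, mw_right T t] with s hs' h2
    rw [mv_some hs, mv_some (h1 s ⟨hs'.1.le, hs'.2⟩), h2]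

/-- The weight of a newly exposed label. -/
theorem mv_le_wt (h : Expo Φ ε L W A) (hΦ : IsPotential Φ) (hε : 0 < ε) (hc : c ∈ A t)
    (hc' : c ∉ before W A t) : mv Φ ε L W c t ≤ wt Φ ε L W A c := by
  rcases hs : stat Φ ε L W c t with _ | S
  · rw [mv_none hs]; exact wt_nonneg _ _ _
  · obtain ⟨T, hT, h1, -⟩ := exists_PS hΦ hε W.finite_toSet hs
    unfold wt
    rw [h.tau_eq hc hc', ptree_eq hΦ hε W.finite_toSet hT, mv_some hs]
    rcases h1 with h1 | ⟨y, h1, h2, h3, h4⟩
    · rw [h1]; exact mw_le_cw T t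
    · subst h1
      rw [mw_node_of_lt h4, cw_of_ext_le h3.le]

/-- Old labels: the weights do not increase at `t`. -/
theorem sum_before_le (h : Expo Φ ε L W A) (hΦ : IsPotential Φ) (hε : 0 < ε) (t : ℝ) :
    ∀ᶠ s in 𝓝[<] t, ∑ c ∈ before W A t, mv Φ ε L W c t ≤ ∑ c ∈ before W A t, mv Φ ε L W c s := by
  classical
  -- the statuses just before `t` of the labels which are alive at `t`
  have h1 : ∀ᶠ s in 𝓝[<] t, ∀ c ∈ before W A t, ∀ S, stat Φ ε L W c t = some S →
      ∃ T, (S = T ∨ ∃ y, S = node T y ∧ sig Φ ε S = t ∧ ext Φ ε T < t ∧ t < ext Φ ε S) ∧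
        stat Φ ε L W c s = some T ∧ (ext Φ ε T ≤ s ∨ t ≤ ext Φ ε T) := by
    rw [Filter.eventually_all_finset]
    intro c hc
    rcases hs : stat Φ ε L W c t with _ | S
    · exact Eventually.of_forall fun _ _ h => absurd h (by simp)
    · obtain ⟨T, hT, h1, h2⟩ := exists_PS hΦ hε W.finite_toSet hs
      obtain ⟨-, r, hr, hc⟩ := mem_before.1 hc
      filter_upwards [h2 ((h.born _ _ hc).trans_lt hr)] with s hs' S' hS'
      rw [Option.some_inj] at hS'
      subst hS'
      exact ⟨T, h1, hs'⟩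
  filter_upwards [h1, h.eventually_before t, self_mem_nhdsWithin] with s h1 hA hst
  have hst : s < t := hst
  -- the value which the weight takes if the label survives
  set g : Src → ℝ := fun c => match stat Φ ε L W c s with
    | none => 0
    | some (leaf σ) => mw Φ ε (leaf σ) s
    | some (node x y) => if ext Φ ε (node x y) = t then ‖(ln Φ ε (node x y)).2‖ ^ 2
        else mw Φ ε (node x y) s with hg
  have hg0 : ∀ c, 0 ≤ g c := by
    intro c
    simp only [hg]
    split
    · exact le_rfl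
    · exact mw_nonneg _ _
    · split_ifs
      · positivity
      · exact mw_nonneg _ _
  have h2 : ∀ c ∈ before W A t, mv Φ ε L W c t ≤ g c := by
    intro c hc
    rcases hs : stat Φ ε L W c t with _ | S
    · rw [mv_none hs]; exact hg0 c
    · obtain ⟨T, h3, h4, h5⟩ := h1 c hc S hs
      rw [mv_some hs]
      have hgc : (ext Φ ε T ≤ s → g c = ‖(ln Φ ε T).2‖ ^ 2) := by
        intro he
        simp only [hg, h4]
        cases T with
        | leaf σ => rfl
        | node x y =>
          simp only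
          rw [if_neg (by linarith), mw_of_ext_le he]
      rcases h3 with h3 | ⟨y, h3, h6, h7, h8⟩
      · subst h3
        rcases h5 with h5 | h5
        · rw [hgc h5, mw_of_ext_le (h5.trans hst.le)]
        · cases S with
          | leaf σ =>
            simp only [hg, h4]
            exact le_rfl
          | node x y =>
            simp only [hg, h4]
            rcases h5.lt_or_eq with h6 | h6
            · rw [if_neg h6.ne', mw_node_of_lt h6, mw_node_of_lt (hst.trans h6)]
            · rw [if_pos h6.symm, mw_of_ext_le h6.symm.le]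
      · subst h3
        rcases h5 with h5 | h5
        · rw [hgc h5, mw_node_of_lt h8]
        · exact absurd h5 (not_le.2 h7)
  refine (Finset.sum_le_sum h2).trans ?_
  -- the labels whose collision ends at `t`
  set C : Finset Src := (before W A t).filter fun c =>
    ∃ x y, stat Φ ε L W c s = some (node x y) ∧ ext Φ ε (node x y) = t with hC
  have hsplit : ∀ f : Src → ℝ, ∑ c ∈ before W A t, f c =
      ∑ c ∈ C, f c + ∑ c ∈ (before W A t).filter (fun c => ¬∃ x y,
        stat Φ ε L W c s = some (node x y) ∧ ext Φ ε (node x y) = t), f c :=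
    fun f => (Finset.sum_filter_add_sum_filter_not _ _ _).symm
  rw [hsplit g, hsplit (fun c => mv Φ ε L W c s)]
  refine add_le_add ?_ (Finset.sum_le_sum fun c hc => ?_)
  · -- involution
    set p : Src → Src := fun c => prt (stat Φ ε L W c s) c with hp
    have hpart : ∀ c ∈ C, ∃ x y, stat Φ ε L W c s = some (node x y) ∧ ext Φ ε (node x y) = t ∧
        p c = y.root ∧ x.root = c ∧ stat Φ ε L W (p c) s = some (node y x) ∧ p c ∈ C ∧
        p (p c) = c := by
      intro c hc
      rw [hC, Finset.mem_filter] at hc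
      obtain ⟨hc, x, y, h3, h4⟩ := hc
      have h5 : p c = y.root := by
        change prt (stat Φ ε L W c s) c = _
        rw [h3, prt_node]
      have h6 : x.root = c := ((stat_eq_some_iff hΦ hε W.finite_toSet).1 h3).1
      have h7 : stat Φ ε L W (p c) s = some (node y x) := by
        rw [h5]
        exact stat_partner hΦ hε W.finite_toSet h3 (by rw [h4]; exact hst)
      have h8 : p c ∈ A s := by
        rw [h5]
        rw [← hA] at hc
        exact h.partner s c hc x y h3 (by rw [h4]; exact hst)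
      refine ⟨x, y, h3, h4, h5, h6, h7, ?_, ?_⟩
      · rw [hC, Finset.mem_filter, ← hA]
        exact ⟨h8, y, x, h7, by rw [ext_swap hΦ, h4]⟩
      · change prt (stat Φ ε L W (p c) s) (p c) = c
        rw [h7, prt_node, h6]
    refine sum_le_of_swap C p (fun c hc => ?_) (fun c hc => ?_) (fun c hc => ?_)
    · obtain ⟨x, y, -, -, -, -, -, h3, -⟩ := hpart c hc
      exact h3
    · obtain ⟨x, y, -, -, -, -, -, -, h3⟩ := hpart c hc
      exact h3
    · obtain ⟨x, y, h3, h4, h5, h6, h7, -, -⟩ := hpart c hc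
      have e1 : g c = ‖(ln Φ ε (node x y)).2‖ ^ 2 := by
        simp only [hg, h3]
        rw [if_pos h4]
      have e2 : g (p c) = ‖(ln Φ ε (node y x)).2‖ ^ 2 := by
        simp only [hg, h7]
        rw [if_pos (by rw [ext_swap hΦ, h4])]
      rw [e1, e2, mv_some h3, mv_some h7, mw_node_of_lt (by rw [h4]; exact hst),
        mw_node_of_lt (by rw [ext_swap hΦ, h4]; exact hst), ln_swap hΦ x y]
      have := energy_sc2 hΦ hε.ne' (ln Φ ε x, ln Φ ε y)
      exact this.le
  · rw [Finset.mem_filter] at hc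
    simp only [hg]
    rcases h3 : stat Φ ε L W c s with _ | S
    · simp only
      rw [mv_none h3]
    · cases S with
      | leaf σ =>
        simp only
        rw [mv_some h3]
      | node x y =>
        simp only
        rw [mv_some h3, if_neg fun h4 => hc.2 ⟨x, y, h3, h4⟩]

/-- **The energy of the ghosts.** -/
theorem ghost_energy (h : Expo Φ ε L W A) (hΦ : IsPotential Φ) (hε : 0 < ε) (t : ℝ) :
    ∑ c ∈ A t, mv Φ ε L W c t ≤ ∑ c ∈ A t, wt Φ ε L W A c := by
  classical
  by_cases ht : t < 0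
  · have h1 : A t = ∅ := by
      rw [Finset.eq_empty_iff_forall_notMem]
      intro c hc
      have h2 := h.born _ _ hc
      have h3 := h.nonneg _ (h.sub _ hc)
      linarith
    rw [h1, Finset.sum_empty, Finset.sum_empty]
  rw [not_lt] at ht
  refine time_ind (P := fun t => ∑ c ∈ A t, mv Φ ε L W c t ≤ ∑ c ∈ A t, wt Φ ε L W A c) (a := -1)
    (fun t _ IH => ?_) (fun t _ ht' => ?_) t (by linarith)
  · by_cases ht : t < 0
    · have h1 : A t = ∅ := by
        rw [Finset.eq_empty_iff_forall_notMem]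
        intro c hc
        have h2 := h.born _ _ hc
        have h3 := h.nonneg _ (h.sub _ hc)
        linarith
      rw [h1, Finset.sum_empty, Finset.sum_empty]
    rw [not_lt] at ht
    have h1 : ∀ᶠ s in 𝓝[<] t, -1 < s ∧ s < t := by
      filter_upwards [Ioo_mem_nhdsLT (show (-1 : ℝ) < t by linarith)] with s hs using hs
    obtain ⟨s, ⟨h2, h2'⟩, h3, h4⟩ :=
      (h1.and ((h.sum_before_le hΦ hε t).and (h.eventually_before t))).exists
    have h5 := IH s h2.le h2'
    rw [h4] at h5
    rw [← Finset.sum_sdiff (h.before_subset t), ← Finset.sum_sdiff (h.before_subset t)]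
    refine add_le_add (Finset.sum_le_sum fun c hc => ?_) (h3.trans h5)
    rw [Finset.mem_sdiff] at hc
    exact h.mv_le_wt hΦ hε hc.1 hc.2
  · have h1 : ∀ᶠ s in 𝓝[>] t, ∀ c ∈ A t, mv Φ ε L W c s = mv Φ ε L W c t := by
      rw [Filter.eventually_all_finset]
      exact fun c hc => h.mv_right hΦ hε hc
    filter_upwards [h1, h.right t] with s hs hs'
    rw [hs', Finset.sum_congr rfl hs]
    exact ht'

end Expo

end Vale.Agent.P119.EN
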