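import Vale.Agent.P119.EN.Ghost

/-!
# P119, block ENERGY: the velocities of the exposed ghosts (`helper456`)

`ghost_vel`: the sum over the exposed living labels of the squares of the velocities of the M-paths
(`mpos`) is at most `∑ c ∈ A t, (wt c + 2 B)`.
-/

open Filter Topology Set
open scoped NNReal

noncomputable section

namespace Vale.Agent.P119.EN

open KU M M.CTree RW

variable {Φ : E3 → ℝ} {ε : ℝ} {L : ℕ}

/-- A stable pair potential is bounded from below. -/
theorem phi_ge (hΦ : IsPotential Φ) {B : ℝ} (hB : StableWith Φ B) {y : E3} (hy : Adm Φ y) :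
    -(2 * B) ≤ Φ y := by
  have e : pairTot Φ ![y, 0] = Φ y := by
    have h := pairTot_double hΦ ![y, 0]
    rw [Fin.sum_univ_two] at h
    have h1 : (Finset.univ : Finset (Fin 2)).erase 0 = {1} := by decide
    have h2 : (Finset.univ : Finset (Fin 2)).erase 1 = {0} := by decide
    rw [h1, h2, Finset.sum_singleton, Finset.sum_singleton] at h
    simp only [Matrix.cons_val_zero, Matrix.cons_val_one, sub_zero, zero_sub] at h
    rw [even_of_potential hΦ] at h
    linarith
  rcases hy with hy | hy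
  · have h := hB.of_continuous hy.continuous (n := 2) ![y, 0]
    rw [e] at h
    push_cast at h
    linarith
  · have h := hB.2 2 ![y, 0] (by
      intro i j hij
      fin_cases i <;> fin_cases j
      · rfl
      · simp at hij; exact absurd hij hy
      · simp at hij; exact absurd hij.symm hy
      · rfl)
    have h3 : ∑ i, ∑ j ∈ Finset.Ioi i, Φ ((![y, 0] : Fin 2 → E3) i - (![y, 0] : Fin 2 → E3) j) =
        Φ y := e
    rw [h3] at h
    push_cast at h
    linarith

/-- The kinetic energy of a colliding pair. -/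
theorem kin_pairLine (hΦ : IsPotential Φ) (hε : 0 < ε) {q : Ph × Ph} (hq : q.1.2 - q.2.2 ≠ 0)
    (t : ℝ) : ‖(pairLine Φ ε q t).1.2‖ ^ 2 + ‖(pairLine Φ ε q t).2.2‖ ^ 2 +
      2 * Φ (ε⁻¹ • ((pairLine Φ ε q t).1.1 - (pairLine Φ ε q t).2.1)) =
      ‖q.1.2‖ ^ 2 + ‖q.2.2‖ ^ 2 := by
  have h1 := kin_eq ε (pairLine Φ ε q t)
  have h2 := kin_eq ε q
  have h3 := en_traj (Φ := Φ) hΦ (p := rel ε q) hq (t / ε)
  rw [← rel_pairLine hε.ne'] at h3
  rw [com_pairLine, free_snd] at h1
  unfold en at h3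
  have h4 : (rel ε (pairLine Φ ε q t)).1 =
      ε⁻¹ • ((pairLine Φ ε q t).1.1 - (pairLine Φ ε q t).2.1) := rfl
  rw [← h4]
  linarith

theorem kin_pairLine_le (hΦ : IsPotential Φ) {B : ℝ} (hB : StableWith Φ B) (hε : 0 < ε)
    {q : Ph × Ph} (hq : q.1.2 - q.2.2 ≠ 0) (t : ℝ) :
    ‖(pairLine Φ ε q t).1.2‖ ^ 2 + ‖(pairLine Φ ε q t).2.2‖ ^ 2 ≤
      ‖q.1.2‖ ^ 2 + ‖q.2.2‖ ^ 2 + 4 * B := by
  have h1 := kin_pairLine hΦ hε hq t
  have h2 : Adm Φ (rel ε (pairLine Φ ε q t)).1 := by
    rw [rel_pairLine hε.ne']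
    exact adm_traj hΦ (p := rel ε q) hq _
  have h3 := phi_ge hΦ hB h2
  have h4 : (rel ε (pairLine Φ ε q t)).1 =
      ε⁻¹ • ((pairLine Φ ε q t).1.1 - (pairLine Φ ε q t).2.1) := rfl
  rw [h4] at h3
  linarith

/-- The square of the velocity of the M-path of `c` (`0` if it is dead). -/
def vs (Φ : E3 → ℝ) (ε : ℝ) (L : ℕ) (W : Finset Src) (c : Src) (t : ℝ) : ℝ :=
  match stat Φ ε L W c t with
  | none => 0
  | some T => ‖(st Φ ε T t).2‖ ^ 2

theorem vs_none {W : Finset Src} {c : Src} {t : ℝ} (h : stat Φ ε L W c t = none) :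
    vs Φ ε L W c t = 0 := by
  unfold vs; rw [h]

theorem vs_some {W : Finset Src} {c : Src} {t : ℝ} {T : CTree} (h : stat Φ ε L W c t = some T) :
    vs Φ ε L W c t = ‖(st Φ ε T t).2‖ ^ 2 := by
  unfold vs; rw [h]

theorem vs_mpos {W : Finset Src} {c : Src} {t : ℝ} (h : stat Φ ε L W c t ≠ none) :
    vs Φ ε L W c t = ‖(mpos Φ ε L W c t).2‖ ^ 2 := by
  obtain ⟨T, hT⟩ := Option.ne_none_iff_exists'.1 h
  rw [vs_some hT, mpos_eq hT]

namespace Expo

variable {W : Finset Src} {A : ℝ → Finset Src} {c : Src}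

/-- **The velocities of the M-paths of the exposed labels.** -/
theorem ghost_vel_le (h : Expo Φ ε L W A) (hΦ : IsPotential Φ) {B : ℝ} (hB : StableWith Φ B)
    (hε : 0 < ε) (t : ℝ) :
    ∑ c ∈ A t, vs Φ ε L W c t ≤ ∑ c ∈ A t, (mv Φ ε L W c t + 2 * B) := by
  classical
  set C : Finset Src := (A t).filter fun c =>
    ∃ x y, stat Φ ε L W c t = some (node x y) ∧ t < ext Φ ε (node x y) with hC
  have hsplit : ∀ f : Src → ℝ, ∑ c ∈ A t, f c =
      ∑ c ∈ C, f c + ∑ c ∈ (A t).filter (fun c => ¬∃ x y,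
        stat Φ ε L W c t = some (node x y) ∧ t < ext Φ ε (node x y)), f c :=
    fun f => (Finset.sum_filter_add_sum_filter_not _ _ _).symm
  rw [hsplit (fun c => vs Φ ε L W c t), hsplit (fun c => mv Φ ε L W c t + 2 * B)]
  refine add_le_add ?_ (Finset.sum_le_sum fun c hc => ?_)
  · set p : Src → Src := fun c => prt (stat Φ ε L W c t) c with hp
    have hpart : ∀ c ∈ C, ∃ x y, stat Φ ε L W c t = some (node x y) ∧ t < ext Φ ε (node x y) ∧
        stat Φ ε L W (p c) t = some (node y x) ∧ p c ∈ C ∧ p (p c) = c := by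
      intro c hc
      rw [hC, Finset.mem_filter] at hc
      obtain ⟨hc, x, y, h3, h4⟩ := hc
      have h5 : p c = y.root := by
        change prt (stat Φ ε L W c t) c = _
        rw [h3, prt_node]
      have h6 : x.root = c := ((stat_eq_some_iff hΦ hε W.finite_toSet).1 h3).1
      have h7 : stat Φ ε L W (p c) t = some (node y x) := by
        rw [h5]
        exact stat_partner hΦ hε W.finite_toSet h3 h4
      have h8 : p c ∈ A t := by
        rw [h5]
        exact h.partner t c hc x y h3 h4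
      refine ⟨x, y, h3, h4, h7, ?_, ?_⟩
      · rw [hC, Finset.mem_filter]
        exact ⟨h8, y, x, h7, by rw [ext_swap hΦ]; exact h4⟩
      · change prt (stat Φ ε L W (p c) t) (p c) = c
        rw [h7, prt_node, h6]
    refine sum_le_of_swap C p (fun c hc => ?_) (fun c hc => ?_) (fun c hc => ?_)
    · obtain ⟨x, y, -, -, -, h3, -⟩ := hpart c hc
      exact h3
    · obtain ⟨x, y, -, -, -, -, h3⟩ := hpart c hc
      exact h3
    · obtain ⟨x, y, h3, h4, h7, -, -⟩ := hpart c hc
      have hok : ok Φ ε (node x y) := ((stat_eq_some_iff hΦ hε W.finite_toSet).1 h3).2.ok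
      rw [vs_some h3, vs_some h7, mv_some h3, mv_some h7, mw_node_of_lt h4,
        mw_node_of_lt (by rw [ext_swap hΦ]; exact h4), st_swap hΦ x y]
      have h8 := kin_pairLine_le hΦ hB hε (q := (ln Φ ε x, ln Φ ε y)) hok.2.2.2.1.1 t
      have h9 : st Φ ε (node x y) t = (pairLine Φ ε (ln Φ ε x, ln Φ ε y) t).1 := rfl
      rw [h9]
      linarith
  · rw [Finset.mem_filter] at hc
    have hB0 := hB.1
    rcases h3 : stat Φ ε L W c t with _ | S
    · rw [vs_none h3, mv_none h3]
      linarith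
    · have hok : ok Φ ε S := ((stat_eq_some_iff hΦ hε W.finite_toSet).1 h3).2.ok
      have h4 : ext Φ ε S ≤ t ∨ ∃ σ, S = leaf σ := by
        cases S with
        | leaf σ => exact Or.inr ⟨σ, rfl⟩
        | node x y =>
          left
          by_contra hcon
          exact hc.2 ⟨x, y, h3, not_le.1 hcon⟩
      rw [vs_some h3, mv_some h3]
      rcases h4 with h4 | ⟨σ, rfl⟩
      · rw [mw_of_ext_le h4, st_after hΦ hε hok h4, free_snd]
        linarith
      · have : (st Φ ε (leaf σ) t).2 = σ.2.1.2 := rfl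
        rw [this]
        have h5 : mw Φ ε (leaf σ) t = ‖σ.2.1.2‖ ^ 2 := rfl
        rw [h5]
        linarith

theorem ghost_vel (h : Expo Φ ε L W A) (hΦ : IsPotential Φ) {B : ℝ} (hB : StableWith Φ B)
    (hε : 0 < ε) (t : ℝ) :
    ∑ c ∈ A t, vs Φ ε L W c t ≤ ∑ c ∈ A t, (wt Φ ε L W A c + 2 * B) := by
  refine (h.ghost_vel_le hΦ hB hε t).trans ?_
  rw [Finset.sum_add_distrib, Finset.sum_add_distrib]
  exact add_le_add (h.ghost_energy hΦ hε t) le_rfl

end Expo

end Vale.Agent.P119.EN
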