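import Vale.Agent.P119.EN.Sub
import Vale.Agent.P119.RB.Status

/-!
# P119, block ENERGY: the energy of the exposed particles of the real world (`helper456`)

* `Expo2`: the properties of the exposed sets `A t` used here (with Lemma H as a field);
* `Expo2.energy_le`: the energy of the exposed particles is at most `∑ c ∈ A t, wt c / 2`;
* `Expo2.real_vel`: `∑ c ∈ A t, |velocity of c|² ≤ ∑ c ∈ A t, (wt c + 2 B (1 + 2 k))`, `k` the number
  of sources which are not in the initial configuration.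
-/

open MeasureTheory Filter Topology Set
open scoped NNReal

noncomputable section

namespace Vale.Agent.P119.EN

open KU M M.CTree RW RB

variable {Φ : E3 → ℝ} {ε : ℝ} {L : ℕ}

/-- The real world of a finite set of sources. -/
def xr (Φ : E3 → ℝ) (ε : ℝ) (W : Finset Src) : ℝ → Src → Ph :=
  RB Φ ε (Prod.fst : Src → ℝ) (fun a => a.2.1) W

/-! ### Partners -/

theorem mcon_of_partner (hΦ : IsPotential Φ) (hε : 0 < ε) {W : Set Src} {x y : CTree} {t : ℝ}
    (h : live Φ ε L W (node x y) t) (h' : live Φ ε L W (node y x) t)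
    (ht : t < ext Φ ε (node x y)) : mcon Φ ε L W t x.root y.root := by
  have hok := h.ok
  refine ⟨fun hr => ?_, node x y, node y x, rfl, rfl, h, h', ?_⟩
  · exact disjoint_left.1 hok.2.2.1 x.root_mem_leaves (hr ▸ y.root_mem_leaves)
  · rw [st_swap hΦ x y]
    change Ctc ε (pairLine Φ ε (ln Φ ε x, ln Φ ε y) t).1 (pairLine Φ ε (ln Φ ε x, ln Φ ε y) t).2
    rcases h.sig_le.lt_or_eq with h1 | h1
    · exact ctc_of_lt ((dist_pairLine_lt_iff hΦ hε hok.2.2.2.2.1 hok.2.2.2.1.2 t).2 ⟨h1, ht⟩)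
    · have h2 : t = hitT ε (ln Φ ε x, ln Φ ε y) := h1.symm
      rw [h2, pairLine_before hΦ hε hok.2.2.2.1.1 hok.2.2.2.1.2.le le_rfl]
      exact ctc_hitT hε hok.2.2.2.1

theorem le_dist_of_not_ctc {ε : ℝ} {p q : Ph} (h : ¬Ctc ε p q) : ε ≤ ‖p.1 - q.1‖ := by
  by_contra hcon
  exact h (ctc_of_lt (not_le.1 hcon))

/-- The statuses just before a time are constant. -/
theorem stat_left (hΦ : IsPotential Φ) (hε : 0 < ε) {W : Set Src} (hW : W.Finite) {c : Src}
    {t : ℝ} (hc : c.1 < t) (h : ∀ s, c.1 ≤ s → s < t → stat Φ ε L W c s ≠ none) :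
    ∃ T, PS Φ ε L W c t T ∧ ∀ᶠ s in 𝓝[<] t, stat Φ ε L W c s = some T := by
  have h1 : ∀ᶠ s in 𝓝[<] t, ∀ T ∈ {T : CTree | T.leaves ⊆ W ∧ T.depth ≤ L},
      sig Φ ε T < t → sig Φ ε T ≤ s := by
    rw [(finite_depth hW L).eventually_all]
    intro T _
    by_cases h2 : sig Φ ε T < t
    · filter_upwards [Ioo_mem_nhdsLT h2] with s hs _ using hs.1.le
    · exact Eventually.of_forall fun _ h => absurd h h2
  have h2 : ∀ᶠ s in 𝓝[<] t, c.1 < s ∧ s < t := by
    filter_upwards [Ioo_mem_nhdsLT hc] with s hs using hs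
  obtain ⟨s₀, h3, h4, h5⟩ := (h1.and h2).exists
  obtain ⟨T, hT⟩ := Option.ne_none_iff_exists'.1 (h s₀ h4.le h5)
  have key : ∀ s, s₀ ≤ s → s < t → stat Φ ε L W c s = some T := by
    intro s hs hst
    obtain ⟨S, hS⟩ := Option.ne_none_iff_exists'.1 (h s (h4.le.trans hs) hst)
    have h6 := stat_cur hΦ hε hW hS hs h4.le
    have h7 := ((stat_eq_some_iff hΦ hε hW).1 hS).2
    have h8 : sig Φ ε S ≤ s₀ := h3 S ⟨h7.sub, h7.depth⟩ (h7.sig_le.trans_lt hst)
    rw [cur_of_sig_le h8, hT, Option.some_inj] at h6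
    rw [hS, h6]
  have hT' := (stat_eq_some_iff hΦ hε hW).1 hT
  refine ⟨T, ⟨hT'.1, ?_, Or.inr (hT'.2.sig_le.trans_lt h5)⟩, ?_⟩
  · refine live_of_lives_before (hT'.2.sig_le.trans_lt h5) fun r hr hrt => ?_
    have h9 := ((stat_eq_some_iff hΦ hε hW).1 (key (max r s₀) (le_max_right _ _)
      (max_lt hrt h5))).2
    exact h9.anti (le_max_left _ _) hr
  · filter_upwards [Ioo_mem_nhdsLT h5] with s hs using key s hs.1.le hs.2

/-! ### The exposed sets in the real world -/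

/-- What is used of the exposed sets. -/
structure Expo2 (Φ : E3 → ℝ) (ε : ℝ) (L : ℕ) (W : Finset Src) (A : ℝ → Finset Src) : Prop where
  nonneg : ∀ c ∈ W, 0 ≤ c.1
  sub : ∀ t, A t ⊆ W
  born : ∀ t, ∀ c ∈ A t, c.1 ≤ t
  mono : ∀ s t, s ≤ t → A s ⊆ A t
  right : ∀ t, ∀ᶠ s in 𝓝[>] t, A s = A t
  bad : ∀ t c, badi Φ ε L (W : Set Src) c t → c ∈ A t
  mcon : ∀ t c b, mcon Φ ε L (W : Set Src) t c b → b ∈ A t → c ∈ A t
  rcon : ∀ t, ∀ c ∈ W, ∀ b ∈ A t, c ≠ b → c.1 ≤ t → Ctc ε (xr Φ ε W t c) (xr Φ ε W t b) → c ∈ A t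
  lemH : ∀ t, ∀ c ∈ W, c.1 ≤ t → c ∉ A t → xr Φ ε W t c = mpos Φ ε L (W : Set Src) c t

namespace Expo2

variable {W : Finset Src} {A : ℝ → Finset Src} {t : ℝ} {a b c : Src}

theorem expo (h : Expo2 Φ ε L W A) (hΦ : IsPotential Φ) (hε : 0 < ε) : Expo Φ ε L W A :=
  ⟨h.nonneg, h.sub, h.born, h.mono, h.right, fun t c hc x y hs ht => by
    have h1 := (stat_eq_some_iff hΦ hε W.finite_toSet).1 hs
    have h2 := mcon_of_partner hΦ hε h1.2.live (lives_swap hΦ h1.2 ht).live ht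
    refine h.mcon t _ _ h2.symm ?_
    have : x.root = c := h1.1
    rwa [this]⟩

theorem cont (hΦ : IsPotential Φ) (hε : 0 < ε) (W : Finset Src) (c : Src) :
    Continuous fun t => xr Φ ε W t c := (RB_isBW hΦ hε _ _ W).cont c

theorem cont_dist (hΦ : IsPotential Φ) (hε : 0 < ε) (W : Finset Src) (a b : Src) :
    Continuous fun t => ‖(xr Φ ε W t a).1 - (xr Φ ε W t b).1‖ := by
  have h1 := cont hΦ hε W a
  have h2 := cont hΦ hε W b
  fun_prop

/-- Exposed and unexposed particles do not interact. -/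
theorem sep (h : Expo2 Φ ε L W A) (ha : a ∈ A t) (hc : c ∈ W) (hc' : c ∉ A t) (hb : c.1 ≤ t) :
    ε ≤ ‖(xr Φ ε W t a).1 - (xr Φ ε W t c).1‖ := by
  rw [norm_sub_rev]
  refine le_dist_of_not_ctc fun hcon => hc' (h.rcon t c hc a ha ?_ hb hcon)
  rintro rfl
  exact hc' ha

/-- Old and new exposed particles do not interact. -/
theorem sep_new (h : Expo2 Φ ε L W A) (hΦ : IsPotential Φ) (hε : 0 < ε)
    (ha : a ∈ before W A t) (hc : c ∈ A t) (hc' : c ∉ before W A t)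
    (hon : On ε (Prod.fst : Src → ℝ) (xr Φ ε W) a c) :
    ε ≤ ‖(xr Φ ε W t a).1 - (xr Φ ε W t c).1‖ := by
  obtain ⟨haW, s₀, hs₀, ha'⟩ := mem_before.1 ha
  have hcW := h.sub t hc
  have hcs : ∀ s < t, c ∉ A s := fun s hs hcs => hc' (mem_before.2 ⟨hcW, s, hs, hcs⟩)
  have hat : a.1 < t := (h.born _ _ ha').trans_lt hs₀
  rcases (h.born t c hc).lt_or_eq with h1 | h1
  · have h2 : Tendsto (fun s => ‖(xr Φ ε W s a).1 - (xr Φ ε W s c).1‖) (𝓝[<] t)
        (𝓝 ‖(xr Φ ε W t a).1 - (xr Φ ε W t c).1‖) :=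
      ((cont_dist hΦ hε W a c).tendsto t).mono_left nhdsWithin_le_nhds
    refine ge_of_tendsto h2 ?_
    filter_upwards [Ioo_mem_nhdsLT h1, Ioo_mem_nhdsLT hs₀] with s hs hs'
    exact h.sep (h.mono _ _ hs'.1.le ha') hcW (hcs s hs.2) hs.1.le
  · unfold On at hon
    have h2 : max a.1 c.1 = t := by rw [h1]; exact max_eq_right hat.le
    rw [h2] at hon
    exact hon

/-- Unexposed particles which are not partners do not interact. -/
theorem sep_unexp (h : Expo2 Φ ε L W A) (hΦ : IsPotential Φ) (hε : 0 < ε) (ha : a ∈ W)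
    (hc : c ∈ W) (hac : a ≠ c) (hab : a.1 ≤ t) (hcb : c.1 ≤ t) (ha' : a ∉ A t) (hc' : c ∉ A t)
    (hp : ¬part Φ ε L (W : Set Src) t a c) : ε ≤ ‖(xr Φ ε W t a).1 - (xr Φ ε W t c).1‖ := by
  rw [h.lemH t a ha hab ha', h.lemH t c hc hcb hc']
  refine le_dist_of_not_ctc fun hcon => ?_
  have h0 : 0 ≤ t := (h.nonneg a ha).trans hab
  have hT : ∀ b ∈ W, b.1 ≤ t → b ∉ A t → ∃ T, stat Φ ε L (W : Set Src) b t = some T := by
    intro b hb hbt hb'
    rw [← Option.ne_none_iff_exists']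
    exact fun hn => hb' (h.bad t b ⟨Finset.mem_coe.2 hb, h0, hbt, Or.inl hn⟩)
  obtain ⟨T, hTa⟩ := hT a ha hab ha'
  obtain ⟨S, hTc⟩ := hT c hc hcb hc'
  rw [mpos_eq hTa, mpos_eq hTc] at hcon
  exact ha' (h.bad t a ⟨Finset.mem_coe.2 ha, h0, hab, Or.inr ⟨c,
    mcon_of_stat hΦ hε W.finite_toSet hac hTa hTc hcon, hp⟩⟩)

/-- A newly exposed particle is at its M-position. -/
theorem new_pos (h : Expo2 Φ ε L W A) (hΦ : IsPotential Φ) (hε : 0 < ε) (hc : c ∈ A t)
    (hc' : c ∉ before W A t) :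
    xr Φ ε W t c = st Φ ε (ptree Φ ε L W c t) t ∧
      ((ptree Φ ε L W c t = leaf c ∧ c.1 = t) ∨ (c.1 < t ∧ PS Φ ε L W c t (ptree Φ ε L W c t) ∧
        ∀ᶠ s in 𝓝[<] t, stat Φ ε L W c s = some (ptree Φ ε L W c t))) := by
  have hcW := h.sub t hc
  have hcs : ∀ s < t, c ∉ A s := fun s hs hcs => hc' (mem_before.2 ⟨hcW, s, hs, hcs⟩)
  rcases (h.born t c hc).lt_or_eq with h1 | h1
  · have h2 : ∀ s, c.1 ≤ s → s < t → stat Φ ε L (W : Set Src) c s ≠ none := fun s h3 h4 hn =>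
      hcs s h4 (h.bad s c ⟨Finset.mem_coe.2 hcW, (h.nonneg c hcW).trans h3, h3, Or.inl hn⟩)
    obtain ⟨T, hT, hT'⟩ := stat_left hΦ hε W.finite_toSet h1 h2
    have h3 := ptree_eq hΦ hε W.finite_toSet hT
    rw [h3]
    refine ⟨?_, Or.inr ⟨h1, hT, hT'⟩⟩
    have h4 : Tendsto (fun s => xr Φ ε W s c) (𝓝[<] t) (𝓝 (xr Φ ε W t c)) :=
      ((cont hΦ hε W c).tendsto t).mono_left nhdsWithin_le_nhds
    have h5 : Tendsto (fun s => st Φ ε T s) (𝓝[<] t) (𝓝 (st Φ ε T t)) :=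
      ((continuous_st hΦ T).tendsto t).mono_left nhdsWithin_le_nhds
    refine tendsto_nhds_unique h4 (h5.congr' ?_)
    filter_upwards [hT', Ioo_mem_nhdsLT h1] with s hs hs'
    rw [h.lemH s c hcW hs'.1.le (hcs s hs'.2), mpos_eq hs]
  · have h2 : ptree Φ ε L W c t = leaf c := by
      unfold ptree
      split_ifs with h3
      · obtain ⟨h4, h5, h6⟩ := h3.choose_spec
        rcases h6 with h6 | h6
        · exact h6
        · have h7 := root_birth_le_sig hΦ hε h5.ok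
          rw [h4, h1] at h7
          exact absurd h6 (not_lt.2 h7)
      · rfl
    rw [h2]
    refine ⟨?_, Or.inl ⟨rfl, h1⟩⟩
    rw [xr, (RB_isBW hΦ hε _ _ W).pre c t h1.ge]
    rfl

/-- The colliding partner of a newly exposed particle is newly exposed. -/
theorem new_partner (h : Expo2 Φ ε L W A) (hΦ : IsPotential Φ) (hε : 0 < ε) (hc : c ∈ A t)
    (hc' : c ∉ before W A t) {x y : CTree} (hT : ptree Φ ε L W c t = node x y)
    (ht : t < ext Φ ε (node x y)) :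
    x.root = c ∧ y.root ∈ A t ∧ y.root ∉ before W A t ∧ ptree Φ ε L W y.root t = node y x ∧
      y.root ≠ c := by
  have hcW := h.sub t hc
  have hcs : ∀ s < t, c ∉ A s := fun s hs hcs => hc' (mem_before.2 ⟨hcW, s, hs, hcs⟩)
  obtain ⟨-, h1⟩ := h.new_pos hΦ hε hc hc'
  rw [hT] at h1
  rcases h1 with ⟨h1, -⟩ | ⟨h1, ⟨h2, h3, h4⟩, h5⟩
  · exact absurd h1 (by simp)
  have hxc : x.root = c := h2
  have hsig : sig Φ ε (node x y) < t := by
    rcases h4 with h4 | h4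
    · exact absurd h4 (by simp)
    · exact h4
  have h6 : live Φ ε L W (node y x) t := live_swap hΦ h3 ht.le
  have hm := mcon_of_partner hΦ hε h3 h6 ht
  rw [hxc] at hm
  have hyA : y.root ∈ A t := h.mcon t _ _ hm.symm hc
  refine ⟨hxc, hyA, fun hy => ?_, ?_, fun hyc => hm.1 hyc.symm⟩
  · obtain ⟨-, s, hs, hys⟩ := mem_before.1 hy
    have h7 : max s (sig Φ ε (node x y)) < t := max_lt hs hsig
    set r := max s (sig Φ ε (node x y)) with hr
    have h8 : lives Φ ε L W (node x y) r := h3.lives_of_lt h7 (le_max_right _ _)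
    have h9 := lives_swap hΦ h8 (h7.trans ht)
    have h10 := mcon_of_partner hΦ hε h8.live h9.live (h7.trans ht)
    rw [hxc] at h10
    exact hcs r h7 (h.mcon r _ _ h10 (h.mono _ _ (le_max_left _ _) hys))
  · exact ptree_eq hΦ hε W.finite_toSet ⟨rfl, h6, Or.inr (by rw [sig_swap]; exact hsig)⟩

/-- Newly exposed particles only interact with their partners. -/
theorem new_sep (h : Expo2 Φ ε L W A) (hΦ : IsPotential Φ) (hε : 0 < ε) (ha : a ∈ A t)
    (ha' : a ∉ before W A t) (hc : c ∈ A t) (hc' : c ∉ before W A t) (hac : a ≠ c)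
    (hon : On ε (Prod.fst : Src → ℝ) (xr Φ ε W) a c)
    (hd : ‖(xr Φ ε W t a).1 - (xr Φ ε W t c).1‖ < ε) :
    ∃ x y, ptree Φ ε L W a t = node x y ∧ t < ext Φ ε (node x y) ∧ y.root = c := by
  have haW := h.sub t ha
  have hcW := h.sub t hc
  have has : ∀ s < t, a ∉ A s := fun s hs has => ha' (mem_before.2 ⟨haW, s, hs, has⟩)
  have hcs : ∀ s < t, c ∉ A s := fun s hs hcs => hc' (mem_before.2 ⟨hcW, s, hs, hcs⟩)
  have hba := h.born t a ha
  have hbc := h.born t c hc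
  have hmax : max a.1 c.1 < t := by
    rcases (max_le hba hbc).lt_or_eq with h1 | h1
    · exact h1
    · unfold On at hon
      rw [h1] at hon
      exact absurd hd (not_lt.2 hon)
  have h1 : ∀ᶠ s in 𝓝[<] t, ‖(xr Φ ε W s a).1 - (xr Φ ε W s c).1‖ < ε :=
    nhdsWithin_le_nhds (((cont_dist hΦ hε W a c).tendsto t).eventually (gt_mem_nhds hd))
  have hpart : ∀ᶠ s in 𝓝[<] t, part Φ ε L (W : Set Src) s a c := by
    filter_upwards [h1, Ioo_mem_nhdsLT hmax] with s hs hs'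
    by_contra hcon
    exact absurd hs (not_lt.2 (h.sep_unexp hΦ hε haW hcW hac ((le_max_left _ _).trans hs'.1.le)
      ((le_max_right _ _).trans hs'.1.le) (has s hs'.2) (hcs s hs'.2) hcon))
  obtain ⟨h2, h3⟩ := h.new_pos hΦ hε ha ha'
  rcases h3 with ⟨-, h3⟩ | ⟨-, hPS, h4⟩
  · exact absurd ((le_max_left a.1 c.1).trans_lt hmax) (by rw [h3]; exact lt_irrefl _)
  -- the form of the tree
  obtain ⟨s, h5, h6, h7⟩ := (hpart.and (h4.and self_mem_nhdsWithin)).exists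
  obtain ⟨T, T', h8, h9, x, y, rfl, rfl, h10⟩ := h5
  rw [h6, Option.some_inj] at h8
  have hyc : y.root = c := ((stat_eq_some_iff hΦ hε W.finite_toSet).1 h9).1
  have hxa : x.root = a := by
    have := hPS.1
    rw [h8] at this
    exact this
  refine ⟨x, y, h8, ?_, hyc⟩
  -- `t < ext`
  have h11 : ∀ᶠ s in 𝓝[<] t, s < ext Φ ε (node x y) := by
    filter_upwards [hpart, h4] with r hr hr'
    obtain ⟨T, T', h12, -, x', y', rfl, rfl, h13⟩ := hr
    rw [hr', h8, Option.some_inj] at h12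
    rw [h12]
    exact h13
  have h12 : t ≤ ext Φ ε (node x y) := by
    by_contra hcon
    obtain ⟨r, hr, hr'⟩ := (h11.and (Ioo_mem_nhdsLT (not_le.1 hcon))).exists
    exact absurd hr (not_lt.2 hr'.1.le)
  have h9' := (stat_eq_some_iff hΦ hε W.finite_toSet).1 h9
  have hok : ok Φ ε (node x y) := by
    have := hPS.2.1.ok
    rwa [h8] at this
  -- the tree of `c`
  have hpc : ptree Φ ε L W c t = node y x := by
    obtain ⟨-, h13⟩ := h.new_pos hΦ hε hc hc'
    rcases h13 with ⟨-, h13⟩ | ⟨-, hPSc, h14⟩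
    · exact absurd ((le_max_right a.1 c.1).trans_lt hmax) (by rw [h13]; exact lt_irrefl _)
    · obtain ⟨r, h15, h16, h17⟩ := (hpart.and (h4.and h14)).exists
      obtain ⟨T, T', h18, h19, x', y', rfl, rfl, -⟩ := h15
      rw [h16, h8, Option.some_inj] at h18
      rw [h17, Option.some_inj] at h19
      injection h18 with e1 e2
      rw [h19, e1, e2]
  obtain ⟨h13, -⟩ := h.new_pos hΦ hε hc hc'
  rw [h2, h13, h8, hpc, st_swap hΦ x y] at hd
  have h14 : (st Φ ε (node x y) t) = (pairLine Φ ε (ln Φ ε x, ln Φ ε y) t).1 := rfl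
  rw [h14] at hd
  exact ((dist_pairLine_lt_iff hΦ hε hok.2.2.2.2.1 hok.2.2.2.1.2 t).1 hd).2

/-- Colliding partners interact. -/
theorem new_on (h : Expo2 Φ ε L W A) (hΦ : IsPotential Φ) (hε : 0 < ε) (hc : c ∈ A t)
    (hc' : c ∉ before W A t) {x y : CTree} (hT : ptree Φ ε L W c t = node x y)
    (ht : t < ext Φ ε (node x y)) : On ε (Prod.fst : Src → ℝ) (xr Φ ε W) c y.root := by
  obtain ⟨h1, h2, h3, h4, h5⟩ := h.new_partner hΦ hε hc hc' hT ht
  have hcW := h.sub t hc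
  have hyW := h.sub t h2
  have hcs : ∀ s < t, c ∉ A s := fun s hs hcs => hc' (mem_before.2 ⟨hcW, s, hs, hcs⟩)
  have hys : ∀ s < t, y.root ∉ A s := fun s hs hys => h3 (mem_before.2 ⟨hyW, s, hs, hys⟩)
  obtain ⟨-, h6⟩ := h.new_pos hΦ hε hc hc'
  rw [hT] at h6
  rcases h6 with ⟨h6, -⟩ | ⟨-, ⟨-, h7, h8⟩, -⟩
  · exact absurd h6 (by simp)
  have hsig : sig Φ ε (node x y) < t := by
    rcases h8 with h8 | h8
    · exact absurd h8 (by simp)
    · exact h8
  have hok := h7.ok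
  have hbx : c.1 < sig Φ ε (node x y) := by
    have e1 := root_birth_le_sig hΦ hε hok.1
    have e2 := sig_le_ext hΦ hε hok.1
    have e3 := hok.2.2.2.2.2.1
    rw [h1] at e1
    exact (e1.trans e2).trans_lt e3
  have hby : y.root.1 < sig Φ ε (node x y) := by
    have e1 := root_birth_le_sig hΦ hε hok.2.1
    have e2 := sig_le_ext hΦ hε hok.2.1
    have e3 := hok.2.2.2.2.2.2
    exact (e1.trans e2).trans_lt e3
  set r := max c.1 y.root.1 with hr
  have hr1 : r < sig Φ ε (node x y) := max_lt hbx hby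
  have hrt : r < t := hr1.trans hsig
  refine h.sep_unexp hΦ hε hcW hyW (Ne.symm h5) (le_max_left _ _) (le_max_right _ _)
    (hcs r hrt) (hys r hrt) ?_
  -- at the birth of the second one they are not partners
  rintro ⟨T, T', h9, h10, x', y', rfl, rfl, h11⟩
  have e1 := (stat_eq_some_iff hΦ hε W.finite_toSet).1 h9
  have e2 := (stat_eq_some_iff hΦ hε W.finite_toSet).1 h10
  have e3 : c.1 < r := by
    have f1 := root_birth_le_sig hΦ hε e1.2.ok.1
    have f2 := sig_le_ext hΦ hε e1.2.ok.1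
    have f3 := e1.2.ok.2.2.2.2.2.1
    have f4 := e1.2.sig_le
    have f5 : x'.root = c := e1.1
    rw [f5] at f1
    exact ((f1.trans f2).trans_lt f3).trans_le f4
  have e4 : y.root.1 < r := by
    have f1 := root_birth_le_sig hΦ hε e2.2.ok.1
    have f2 := sig_le_ext hΦ hε e2.2.ok.1
    have f3 := e2.2.ok.2.2.2.2.2.1
    have f4 := e2.2.sig_le
    have f5 : y'.root = y.root := e2.1
    rw [f5] at f1
    exact ((f1.trans f2).trans_lt f3).trans_le f4
  exact lt_irrefl r (max_lt e3 e4)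

end Expo2

end Vale.Agent.P119.EN
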