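import Vale.Agent.P119.EN.Real

/-!
# P119, block ENERGY: the energy of the exposed particles of the real world, 2 (`helper456`)

* `Expo2.energy_le`: the energy of the exposed particles is at most `∑ c ∈ A t, wt c / 2`;
* `Expo2.real_vel`: `∑ c ∈ A t, |velocity of c|² ≤ ∑ c ∈ A t, (wt c + 2 B (1 + 2 k))`, `k` the number
  of sources which are not in the initial configuration.
-/

open MeasureTheory Filter Topology Set
open scoped NNReal

noncomputable section

namespace Vale.Agent.P119.EN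

open KU M M.CTree RW RB

variable {Φ : E3 → ℝ} {ε : ℝ} {L : ℕ}

theorem pe_comm {α : Type*} (hΦ : IsPotential Φ) {β : α → ℝ} {x : ℝ → α → Ph} (a a' : α) (t : ℝ) :
    pe Φ ε β x a' a t = pe Φ ε β x a a' t := by
  unfold pe
  rw [max_comm (β a') (β a), on_comm (a := a') (a' := a)]
  split_ifs
  · rw [← even_of_potential hΦ, ← smul_neg, neg_sub]
  · rfl
  · rfl

theorem pe_eq_zero {α : Type*} (hΦ : IsPotential Φ) (hε : 0 < ε) {β : α → ℝ} {x : ℝ → α → Ph}
    {a a' : α} {t : ℝ}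
    (h : max (β a) (β a') ≤ t → On ε β x a a' → ε ≤ ‖(x t a).1 - (x t a').1‖) :
    pe Φ ε β x a a' t = 0 := by
  unfold pe
  split_ifs with h1 h2
  · apply hΦ.vanishing
    rw [norm_smul, norm_inv, Real.norm_eq_abs, abs_of_pos hε, inv_mul_eq_div, le_div_iff₀ hε,
      one_mul]
    exact h h2 h1
  · rfl
  · rfl

theorem pe_self {α : Type*} (hε : 0 < ε) {β : α → ℝ} {x : ℝ → α → Ph} (a : α) (t : ℝ) :
    pe Φ ε β x a a t = 0 := by
  unfold pe
  rw [if_neg]
  unfold On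
  rw [sub_self, norm_zero, not_le]
  exact hε

namespace Expo2

variable {W : Finset Src} {A : ℝ → Finset Src} {t : ℝ} {a b c : Src}

/-- The energy of the newly exposed particles. -/
theorem energy_new (h : Expo2 Φ ε L W A) (hΦ : IsPotential Φ) (hε : 0 < ε) {N : Finset Src}
    (hN : ∀ c, c ∈ N ↔ c ∈ A t ∧ c ∉ before W A t) :
    EnS Φ ε (Prod.fst : Src → ℝ) N (xr Φ ε W) t ≤ ∑ c ∈ N, wt Φ ε L W A c / 2 := by
  classical
  have hE := h.expo hΦ hε
  set f : Src → ℝ := fun c => ‖(xr Φ ε W t c).2‖ ^ 2 +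
    ∑ c' ∈ N, pe Φ ε (Prod.fst : Src → ℝ) (xr Φ ε W) c c' t with hf
  have h0 : EnS Φ ε (Prod.fst : Src → ℝ) N (xr Φ ε W) t = (∑ c ∈ N, f c) / 2 := by
    unfold EnS
    simp only [hf]
    rw [← Finset.sum_div, Finset.sum_add_distrib, add_div]
  rw [h0, ← Finset.sum_div]
  refine div_le_div_of_nonneg_right ?_ (by norm_num)
  have hwt : ∀ c ∈ N, wt Φ ε L W A c = cw Φ ε (ptree Φ ε L W c t) t := by
    intro c hc
    obtain ⟨h1, h2⟩ := (hN c).1 hc
    unfold wt
    rw [hE.tau_eq h1 h2]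
  set C : Finset Src := N.filter fun c =>
    ∃ x y, ptree Φ ε L W c t = node x y ∧ t < ext Φ ε (node x y) with hC
  have hsplit : ∀ f : Src → ℝ, ∑ c ∈ N, f c =
      ∑ c ∈ C, f c + ∑ c ∈ N.filter (fun c => ¬∃ x y,
        ptree Φ ε L W c t = node x y ∧ t < ext Φ ε (node x y)), f c :=
    fun f => (Finset.sum_filter_add_sum_filter_not _ _ _).symm
  rw [hsplit f, hsplit fun c => wt Φ ε L W A c]
  refine add_le_add ?_ (Finset.sum_le_sum fun c hc => ?_)
  · -- colliding particles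
    set p : Src → Src := fun c => prt (some (ptree Φ ε L W c t)) c with hp
    have hpart : ∀ c ∈ C, ∃ x y, ptree Φ ε L W c t = node x y ∧ t < ext Φ ε (node x y) ∧
        p c = y.root ∧ ptree Φ ε L W (p c) t = node y x ∧ p c ≠ c ∧ p c ∈ C ∧ p (p c) = c := by
      intro c hc
      rw [hC, Finset.mem_filter] at hc
      obtain ⟨hc, x, y, h3, h4⟩ := hc
      obtain ⟨h1, h2⟩ := (hN c).1 hc
      obtain ⟨e1, e2, e3, e4, e5⟩ := h.new_partner hΦ hε h1 h2 h3 h4
      have h5 : p c = y.root := by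
        change prt (some (ptree Φ ε L W c t)) c = _
        rw [h3, prt_node]
      refine ⟨x, y, h3, h4, h5, ?_, ?_, ?_, ?_⟩
      · rw [h5]; exact e4
      · rw [h5]; exact e5
      · rw [h5, hC, Finset.mem_filter]
        exact ⟨(hN _).2 ⟨e2, e3⟩, y, x, e4, by rw [ext_swap hΦ]; exact h4⟩
      · change prt (some (ptree Φ ε L W (p c) t)) (p c) = c
        rw [h5, e4, prt_node, e1]
    have hsum : ∀ c ∈ C, f c = ‖(xr Φ ε W t c).2‖ ^ 2 +
        Φ (ε⁻¹ • ((xr Φ ε W t c).1 - (xr Φ ε W t (p c)).1)) := by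
      intro c hc
      obtain ⟨x, y, h3, h4, h5, h6, h7, h8, h9⟩ := hpart c hc
      have hcN := (Finset.mem_filter.1 hc).1
      have hpN := (Finset.mem_filter.1 h8).1
      obtain ⟨h1, h2⟩ := (hN c).1 hcN
      obtain ⟨h1', h2'⟩ := (hN _).1 hpN
      simp only [hf]
      congr 1
      rw [Finset.sum_eq_single_of_mem (p c) hpN]
      · unfold pe
        rw [if_pos, if_pos (max_le (h.born t _ h1) (h.born t _ h1'))]
        rw [h5]
        exact h.new_on hΦ hε h1 h2 h3 h4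
      · intro b hb hbp
        by_cases hbc : b = c
        · rw [hbc]; exact pe_self hε _ _
        obtain ⟨h1'', h2''⟩ := (hN _).1 hb
        refine pe_eq_zero hΦ hε fun _ hon => ?_
        by_contra hcon
        obtain ⟨x', y', e1, e2, e3⟩ := h.new_sep hΦ hε h1 h2 h1'' h2'' (Ne.symm hbc) hon
          (not_le.1 hcon)
        rw [h3] at e1
        injection e1 with e4 e5
        rw [← e5, ← h5] at e3
        exact hbp e3.symm
    refine sum_le_of_swap C p (fun c hc => ?_) (fun c hc => ?_) (fun c hc => ?_)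
    · obtain ⟨x, y, -, -, -, -, -, h3, -⟩ := hpart c hc
      exact h3
    · obtain ⟨x, y, -, -, -, -, -, -, h3⟩ := hpart c hc
      exact h3
    · obtain ⟨x, y, h3, h4, h5, h6, h7, h8, h9⟩ := hpart c hc
      have hcN := (Finset.mem_filter.1 hc).1
      have hpN := (Finset.mem_filter.1 h8).1
      obtain ⟨h1, h2⟩ := (hN c).1 hcN
      obtain ⟨h1', h2'⟩ := (hN _).1 hpN
      obtain ⟨e1, e2⟩ := h.new_pos hΦ hε h1 h2
      obtain ⟨e1', -⟩ := h.new_pos hΦ hε h1' h2'
      rcases e2 with ⟨e2, -⟩ | ⟨-, ⟨-, e2, -⟩, -⟩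
      · rw [h3] at e2
        exact absurd e2 (by simp)
      rw [h3] at e1 e2
      have hok := e2.ok
      rw [h6, st_swap hΦ x y] at e1'
      rw [hsum c hc, hsum _ h8, h9, hwt c hcN, hwt _ hpN, h3, h6, cw_node_of_lt h4,
        cw_node_of_lt (by rw [ext_swap hΦ]; exact h4), e1', e1]
      have h10 : st Φ ε (node x y) t = (pairLine Φ ε (ln Φ ε x, ln Φ ε y) t).1 := rfl
      rw [h10]
      have h11 := kin_pairLine hΦ hε (q := (ln Φ ε x, ln Φ ε y)) hok.2.2.2.1.1 t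
      have h12 : Φ (ε⁻¹ • ((pairLine Φ ε (ln Φ ε x, ln Φ ε y) t).2.1 -
          (pairLine Φ ε (ln Φ ε x, ln Φ ε y) t).1.1)) =
          Φ (ε⁻¹ • ((pairLine Φ ε (ln Φ ε x, ln Φ ε y) t).1.1 -
          (pairLine Φ ε (ln Φ ε x, ln Φ ε y) t).2.1)) := by
        rw [← even_of_potential hΦ, ← smul_neg, neg_sub]
      rw [h12]
      have h13 := sq_nonneg ‖(ln Φ ε x).2‖
      have h14 := sq_nonneg ‖(ln Φ ε y).2‖
      simp only at h11
      linarith
  · -- flying particles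
    rw [Finset.mem_filter] at hc
    obtain ⟨hcN, hc⟩ := hc
    obtain ⟨h1, h2⟩ := (hN c).1 hcN
    have h3 : ∑ c' ∈ N, pe Φ ε (Prod.fst : Src → ℝ) (xr Φ ε W) c c' t = 0 := by
      refine Finset.sum_eq_zero fun b hb => ?_
      by_cases hbc : b = c
      · rw [hbc]; exact pe_self hε _ _
      obtain ⟨h1'', h2''⟩ := (hN _).1 hb
      refine pe_eq_zero hΦ hε fun _ hon => ?_
      by_contra hcon
      obtain ⟨x', y', e1, e2, e3⟩ := h.new_sep hΦ hε h1 h2 h1'' h2'' (Ne.symm hbc) hon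
        (not_le.1 hcon)
      exact hc ⟨x', y', e1, e2⟩
    simp only [hf]
    rw [h3, add_zero, hwt c hcN]
    obtain ⟨e1, e2⟩ := h.new_pos hΦ hε h1 h2
    rw [e1]
    rcases e2 with ⟨e2, -⟩ | ⟨-, ⟨-, e2, -⟩, -⟩
    · rw [e2]
      exact le_rfl
    · rcases hT : ptree Φ ε L W c t with σ | ⟨x, y⟩
      · exact le_rfl
      · have h4 : ext Φ ε (node x y) ≤ t := by
          by_contra hcon
          exact hc ⟨x, y, hT, not_le.1 hcon⟩
        rw [hT] at e2
        rw [cw_of_ext_le h4, st_after hΦ hε e2.ok h4, free_snd]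

/-- The energy of the exposed particles at a time of exposure. -/
theorem energy_split (h : Expo2 Φ ε L W A) (hΦ : IsPotential Φ) (hε : 0 < ε) {N : Finset Src}
    (hN : ∀ c, c ∈ N ↔ c ∈ A t ∧ c ∉ before W A t) :
    EnS Φ ε (Prod.fst : Src → ℝ) (A t) (xr Φ ε W) t =
      EnS Φ ε (Prod.fst : Src → ℝ) (before W A t) (xr Φ ε W) t +
        EnS Φ ε (Prod.fst : Src → ℝ) N (xr Φ ε W) t := by
  classical
  have hE := h.expo hΦ hε
  have e1 : N = A t \ before W A t := by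
    ext c
    rw [hN, Finset.mem_sdiff]
  have hsplit : ∀ f : Src → ℝ, ∑ c ∈ A t, f c = ∑ c ∈ before W A t, f c + ∑ c ∈ N, f c := by
    intro f
    rw [e1, add_comm]
    exact (Finset.sum_sdiff (hE.before_subset t)).symm
  have hz : ∀ a ∈ before W A t, ∀ c ∈ N,
      pe Φ ε (Prod.fst : Src → ℝ) (xr Φ ε W) a c t = 0 := by
    intro a ha c hc
    obtain ⟨h1, h2⟩ := (hN c).1 hc
    exact pe_eq_zero hΦ hε fun _ hon => h.sep_new hΦ hε ha h1 h2 hon
  unfold EnS
  rw [hsplit]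
  have e2 : ∑ a ∈ A t, ∑ a' ∈ A t, pe Φ ε (Prod.fst : Src → ℝ) (xr Φ ε W) a a' t =
      ∑ a ∈ before W A t, ∑ a' ∈ before W A t, pe Φ ε (Prod.fst : Src → ℝ) (xr Φ ε W) a a' t +
      ∑ a ∈ N, ∑ a' ∈ N, pe Φ ε (Prod.fst : Src → ℝ) (xr Φ ε W) a a' t := by
    rw [hsplit]
    congr 1
    · refine Finset.sum_congr rfl fun a ha => ?_
      rw [hsplit, Finset.sum_eq_zero fun c hc => hz a ha c hc, add_zero]
    · refine Finset.sum_congr rfl fun c hc => ?_
      rw [hsplit, Finset.sum_eq_zero fun a ha => ?_, zero_add]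
      rw [pe_comm hΦ]
      exact hz a ha c hc
  rw [e2]
  ring

/-- **The energy of the exposed particles.** -/
theorem energy_le (h : Expo2 Φ ε L W A) (hΦ : IsPotential Φ) (hε : 0 < ε) (t : ℝ) :
    EnS Φ ε (Prod.fst : Src → ℝ) (A t) (xr Φ ε W) t ≤ ∑ c ∈ A t, wt Φ ε L W A c / 2 := by
  classical
  have hE := h.expo hΦ hε
  have hneg : ∀ t < 0, EnS Φ ε (Prod.fst : Src → ℝ) (A t) (xr Φ ε W) t ≤
      ∑ c ∈ A t, wt Φ ε L W A c / 2 := by
    intro t ht
    have h1 : A t = ∅ := by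
      rw [Finset.eq_empty_iff_forall_notMem]
      intro c hc
      have h2 := h.born _ _ hc
      have h3 := h.nonneg _ (h.sub _ hc)
      linarith
    rw [h1]
    unfold EnS
    simp
  by_cases ht : t < 0
  · exact hneg t ht
  rw [not_lt] at ht
  refine time_ind (P := fun t => EnS Φ ε (Prod.fst : Src → ℝ) (A t) (xr Φ ε W) t ≤
    ∑ c ∈ A t, wt Φ ε L W A c / 2) (a := -1)
    (fun t _ IH => ?_) (fun t _ ht' => ?_) t (by linarith)
  · by_cases ht : t < 0
    · exact hneg t ht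
    rw [not_lt] at ht
    have hsub : before W A t ⊆ W := (hE.before_subset t).trans (h.sub t)
    have h1 : EnS Φ ε (Prod.fst : Src → ℝ) (before W A t) (xr Φ ε W) t ≤
        ∑ c ∈ before W A t, wt Φ ε L W A c / 2 := by
      have h2 : Tendsto (EnS Φ ε (Prod.fst : Src → ℝ) (before W A t) (xr Φ ε W)) (𝓝[<] t)
          (𝓝 (EnS Φ ε (Prod.fst : Src → ℝ) (before W A t) (xr Φ ε W) t)) :=
        ((EnS_continuous hΦ hε hsub).tendsto t).mono_left nhdsWithin_le_nhds
      refine le_of_tendsto h2 ?_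
      filter_upwards [hE.eventually_before t,
        Ioo_mem_nhdsLT (show (-1 : ℝ) < t by linarith)] with s h3 h4
      have h5 := IH s h4.1.le h4.2
      rw [h3] at h5
      exact h5
    set N : Finset Src := A t \ before W A t with hN
    have hN' : ∀ c, c ∈ N ↔ c ∈ A t ∧ c ∉ before W A t := fun c => Finset.mem_sdiff
    rw [h.energy_split hΦ hε hN', ← Finset.sum_sdiff (hE.before_subset t), add_comm]
    exact add_le_add (h.energy_new hΦ hε hN') h1
  · obtain ⟨u, hu, h1⟩ := mem_nhdsGT_iff_exists_Ioo_subset.1 (h.right t)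
    filter_upwards [Ioo_mem_nhdsGT hu] with s hs
    have h2 : A s = A t := h1 hs
    rw [h2]
    have h3 : EnS Φ ε (Prod.fst : Src → ℝ) (A t) (xr Φ ε W) s =
        EnS Φ ε (Prod.fst : Src → ℝ) (A t) (xr Φ ε W) t := by
      refine EnS_const hΦ hε (h.sub t) hs.1.le fun r hr hrs a ha a' ha' hn hb _ => ?_
      have h4 : A r = A t := by
        rcases hr.lt_or_eq with h5 | h5
        · exact h1 ⟨h5, hrs.trans hs.2⟩
        · rw [h5]
      exact h.sep (by rw [h4]; exact ha) ha' (by rw [h4]; exact hn) ((le_max_right _ _).trans hb)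
    rw [h3]
    exact ht'

open Classical in
/-- **The velocities of the exposed particles.** -/
theorem real_vel (h : Expo2 Φ ε L W A) (hΦ : IsPotential Φ) {B : ℝ} (hB : StableWith Φ B)
    (hε : 0 < ε) (hexcl : ∀ a ∈ W, ∀ a' ∈ W, a ≠ a' → a.1 = 0 → a'.1 = 0 →
      ε ≤ ‖a.2.1.1 - a'.2.1.1‖) (t : ℝ) :
    ∑ c ∈ A t, ‖(xr Φ ε W t c).2‖ ^ 2 ≤ ∑ c ∈ A t, (wt Φ ε L W A c +
      2 * B * (1 + 2 * ((W.filter fun a => a.1 ≠ 0).card : ℝ))) := by
  have h1 := kin_le_EnS (β := (Prod.fst : Src → ℝ)) (ℓ := fun a : Src => a.2.1) (W := W)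
    (b₀ := 0) hΦ hB hε (h.sub t) (t := t) (by
      intro a ha a' ha' hne h0 h0'
      have := hexcl a ha a' ha' hne h0 h0'
      simpa [free] using this) (h.born t)
  have h2 := h.energy_le hΦ hε t
  change ∑ a ∈ A t, ‖(xr Φ ε W t a).2‖ ^ 2 / 2 ≤
    EnS Φ ε (Prod.fst : Src → ℝ) (A t) (xr Φ ε W) t + _ at h1
  rw [← Finset.sum_div] at h1 h2
  rw [Finset.sum_add_distrib, Finset.sum_const, nsmul_eq_mul]
  linarith

end Expo2

end Vale.Agent.P119.EN
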