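import Vale.Agent.P119.EN.GhostVel
import Vale.Agent.P119.RB.Birth3

/-!
# P119, block ENERGY: the energy of a subsystem of the real world with births (`helper456`)

`EnS Φ ε β S x t` is the energy of the particles of `S`.

* `EnS_const`: it is constant as long as `S` does not interact with the rest;
* `EnS_continuous`;
* `kin_le_EnS`: it bounds the kinetic energy (stability), with the number `k` of particles which are
  not in the initial configuration.
-/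

open MeasureTheory Filter Topology Set
open scoped NNReal

noncomputable section

namespace Vale.Agent.P119.EN

open KU RW RB

variable {α : Type*}

/-- The energy of the particles of `S`. -/
def EnS (Ψ : E3 → ℝ) (ε : ℝ) (β : α → ℝ) (S : Finset α) (x : ℝ → α → Ph) (t : ℝ) : ℝ :=
  ∑ a ∈ S, ‖(x t a).2‖ ^ 2 / 2 + (∑ a ∈ S, ∑ a' ∈ S, pe Ψ ε β x a a' t) / 2

section smooth

variable {Ψ : E3 → ℝ} {ε : ℝ} {β : α → ℝ} {ℓ : α → Ph} {W S : Finset α} {x : ℝ → α → Ph}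

theorem pf_eq_zero (hΨ : Sm Ψ) (hε : 0 < ε) {a a' : α} {t : ℝ}
    (h : max (β a) (β a') ≤ t → On ε β x a a' → ε ≤ ‖(x t a).1 - (x t a').1‖) :
    pf Ψ ε β x a a' t = 0 := by
  unfold pf
  split_ifs with h1
  · apply hΨ.gradient_eq_zero
    rw [norm_smul, norm_inv, Real.norm_eq_abs, abs_of_pos hε, inv_mul_eq_div, le_div_iff₀ hε,
      one_mul]
    exact h h1.1 h1.2
  · rfl

theorem EnS_hasDeriv (hΨ : Sm Ψ) (hx : IsBW Ψ ε β ℓ W x) (hS : S ⊆ W) {s : ℝ}
    (H : ∀ a ∈ S, ∀ a' ∈ W, a' ∉ S → pf Ψ ε β x a a' s = 0) :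
    HasDerivWithinAt (EnS Ψ ε β S x) 0 (Ici s) s := by
  classical
  have h1 : ∀ a ∈ S, HasDerivWithinAt (fun s => ‖(x s a).2‖ ^ 2 / 2)
      (inner ℝ (x s a).2 (frc Ψ ε (nbr ε β W x s a) (x s) a)) (Ici s) s := by
    intro a ha
    have h2 := ((hx.hasDeriv_vel (hS ha) s).norm_sq).div_const 2
    have e : 2 * inner ℝ (x s a).2 (frc Ψ ε (nbr ε β W x s a) (x s) a) / 2 =
      inner ℝ (x s a).2 (frc Ψ ε (nbr ε β W x s a) (x s) a) := by ring
    rw [e] at h2
    exact h2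
  have h3 := (HasDerivWithinAt.fun_sum h1).add ((HasDerivWithinAt.fun_sum fun a ha =>
    HasDerivWithinAt.fun_sum fun a' ha' => pe_deriv hΨ hx (hS ha) (hS ha') s).div_const 2)
  refine HasDerivWithinAt.congr_deriv h3 ?_
  have e1 : ∑ a ∈ S, inner ℝ (x s a).2 (frc Ψ ε (nbr ε β W x s a) (x s) a) =
      -∑ a ∈ S, ∑ a' ∈ S, ε⁻¹ * inner ℝ (pf Ψ ε β x a a' s) (x s a).2 := by
    rw [← Finset.sum_neg_distrib]
    refine Finset.sum_congr rfl fun a ha => ?_
    have h4 : ∑ a' ∈ W, pf Ψ ε β x a a' s = ∑ a' ∈ S, pf Ψ ε β x a a' s :=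
      (Finset.sum_subset hS fun a' ha' hn => H a ha a' ha' hn).symm
    rw [frc_nbr, h4, inner_neg_right, inner_smul_right, inner_sum, Finset.mul_sum]
    congr 1
    exact Finset.sum_congr rfl fun a' _ => by rw [real_inner_comm]
  have e2 : ∑ a ∈ S, ∑ a' ∈ S, inner ℝ (pf Ψ ε β x a a' s) (ε⁻¹ • ((x s a).2 - (x s a').2)) =
      2 * ∑ a ∈ S, ∑ a' ∈ S, ε⁻¹ * inner ℝ (pf Ψ ε β x a a' s) (x s a).2 := by
    have e3 : ∑ a ∈ S, ∑ a' ∈ S, ε⁻¹ * inner ℝ (pf Ψ ε β x a a' s) (x s a').2 =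
        -∑ a ∈ S, ∑ a' ∈ S, ε⁻¹ * inner ℝ (pf Ψ ε β x a a' s) (x s a).2 := by
      rw [Finset.sum_comm, ← Finset.sum_neg_distrib]
      refine Finset.sum_congr rfl fun a _ => ?_
      rw [← Finset.sum_neg_distrib]
      refine Finset.sum_congr rfl fun a' _ => ?_
      rw [pf_comm hΨ, inner_neg_left, mul_neg]
    have e4 : ∀ a a', inner ℝ (pf Ψ ε β x a a' s) (ε⁻¹ • ((x s a).2 - (x s a').2)) =
        ε⁻¹ * inner ℝ (pf Ψ ε β x a a' s) (x s a).2 -
          ε⁻¹ * inner ℝ (pf Ψ ε β x a a' s) (x s a').2 := by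
      intro a a'
      rw [inner_smul_right, inner_sub_right]
      ring
    simp_rw [e4, Finset.sum_sub_distrib]
    rw [e3]
    ring
  rw [e1, e2]
  ring

theorem EnS_continuous_sm (hΨ : Sm Ψ) (hε : 0 < ε) (hx : IsBW Ψ ε β ℓ W x) (S : Finset α) :
    Continuous (EnS Ψ ε β S x) := by
  unfold EnS
  refine Continuous.add (continuous_finsetSum _ fun a _ => ?_) (Continuous.div_const
    (continuous_finsetSum _ fun a _ => continuous_finsetSum _ fun a' _ =>
      pe_continuous hΨ hε hx a a') _)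
  have h1 := hx.cont a
  fun_prop

end smooth

section real

variable {Φ : E3 → ℝ} {ε : ℝ} {β : α → ℝ} {ℓ : α → Ph} {W S : Finset α}

/-- The pair energies of the truncated potentials. -/
theorem exists_sm (hΦ : IsPotential Φ) (hε : 0 < ε) (β : α → ℝ) (ℓ : α → Ph) (W : Finset α) :
    ∃ Ψ : E3 → ℝ, Sm Ψ ∧ IsBW Ψ ε β ℓ W (RB Φ ε β ℓ W) ∧
      (∀ a ∈ W, ∀ a' ∈ W, pe Φ ε β (RB Φ ε β ℓ W) a a' = pe Ψ ε β (RB Φ ε β ℓ W) a a') ∧
      ∀ a ∈ W, ∀ a' ∈ W, ∀ t, max (β a) (β a') ≤ t → On ε β (RB Φ ε β ℓ W) a a' →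
        Adm Φ (ε⁻¹ • ((RB Φ ε β ℓ W t a).1 - (RB Φ ε β ℓ W t a').1)) := by
  obtain ⟨k₀, hk₀, h⟩ := RB_spec hΦ hε β ℓ W
  obtain ⟨h1, h2⟩ := h k₀ le_rfl
  refine ⟨trunc Φ k₀, sm_trunc hΦ hk₀, h1, fun a ha a' ha' => ?_, fun a ha a' ha' t ht hon => ?_⟩
  · funext t
    unfold pe
    split_ifs with hon ht
    · have h3 := h2 t a ha a' (mem_nbr.2 ⟨ha', ht, hon⟩)
      exact h3.self_of_nhds.symm
    · rfl
    · rfl
  · have h3 := h2 t a ha a' (mem_nbr.2 ⟨ha', ht, hon⟩)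
    by_cases hs : ContDiff ℝ 2 Φ
    · exact Or.inl hs
    · right
      intro h0
      rw [h0] at h3
      rcases hΦ.regular with hreg | ⟨-, hsing, -⟩
      · exact hs hreg
      · have h4 : Tendsto (trunc Φ k₀) (𝓝[≠] 0) (𝓝 (trunc Φ k₀ 0)) :=
          ((sm_trunc hΦ hk₀).smooth.continuous.tendsto 0).mono_left nhdsWithin_le_nhds
        have h5 : Tendsto Φ (𝓝[≠] 0) (𝓝 (trunc Φ k₀ 0)) :=
          h4.congr' (h3.filter_mono nhdsWithin_le_nhds)
        exact not_tendsto_nhds_of_tendsto_atTop hsing _ h5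

theorem EnS_eq {Ψ : E3 → ℝ} {x : ℝ → α → Ph} (hS : S ⊆ W)
    (h : ∀ a ∈ W, ∀ a' ∈ W, pe Φ ε β x a a' = pe Ψ ε β x a a') :
    EnS Φ ε β S x = EnS Ψ ε β S x := by
  funext t
  unfold EnS
  congr 2
  exact Finset.sum_congr rfl fun a ha => Finset.sum_congr rfl fun a' ha' => by
    rw [h a (hS ha) a' (hS ha')]

theorem EnS_continuous (hΦ : IsPotential Φ) (hε : 0 < ε) (hS : S ⊆ W) :
    Continuous (EnS Φ ε β S (RB Φ ε β ℓ W)) := by
  obtain ⟨Ψ, h1, h2, h3, -⟩ := exists_sm hΦ hε β ℓ W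
  rw [EnS_eq hS h3]
  exact EnS_continuous_sm h1 hε h2 S

/-- **The energy of a subsystem without interaction with the rest is constant.** -/
theorem EnS_const (hΦ : IsPotential Φ) (hε : 0 < ε) (hS : S ⊆ W) {s t : ℝ} (hst : s ≤ t)
    (H : ∀ r, s ≤ r → r < t → ∀ a ∈ S, ∀ a' ∈ W, a' ∉ S → max (β a) (β a') ≤ r →
      On ε β (RB Φ ε β ℓ W) a a' → ε ≤ ‖(RB Φ ε β ℓ W r a).1 - (RB Φ ε β ℓ W r a').1‖) :
    EnS Φ ε β S (RB Φ ε β ℓ W) t = EnS Φ ε β S (RB Φ ε β ℓ W) s := by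
  obtain ⟨Ψ, h1, h2, h3, -⟩ := exists_sm hΦ hε β ℓ W
  rw [EnS_eq hS h3]
  exact constant_of_has_deriv_right_zero (a := s) (b := t)
    (EnS_continuous_sm h1 hε h2 S).continuousOn
    (fun r hr => EnS_hasDeriv h1 h2 hS fun a ha a' ha' hn =>
      pf_eq_zero h1 hε (H r hr.1 hr.2 a ha a' ha' hn)) t ⟨hst, le_rfl⟩

open Classical in
/-- **Stability**: the energy bounds the kinetic energy. -/
theorem kin_le_EnS (hΦ : IsPotential Φ) {B : ℝ} (hB : StableWith Φ B) (hε : 0 < ε) (hS : S ⊆ W)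
    {b₀ : ℝ} (hexcl : ∀ a ∈ W, ∀ a' ∈ W, a ≠ a' → β a = b₀ → β a' = b₀ →
      ε ≤ ‖(free b₀ (ℓ a)).1 - (free b₀ (ℓ a')).1‖) {t : ℝ} (ht : ∀ a ∈ S, β a ≤ t) :
    ∑ a ∈ S, ‖(RB Φ ε β ℓ W t a).2‖ ^ 2 / 2 ≤ EnS Φ ε β S (RB Φ ε β ℓ W) t +
      B * (1 + 2 * ((W.filter fun a => β a ≠ b₀).card : ℝ)) * S.card := by
  obtain ⟨Ψ, h1, h2, h3, h4⟩ := exists_sm hΦ hε β ℓ W
  set x := RB Φ ε β ℓ W with hx
  have hB0 := hB.1
  -- a single pair
  have hpair : ∀ a ∈ S, ∀ a' ∈ S, -(2 * B) ≤ pe Φ ε β x a a' t := by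
    intro a ha a' ha'
    unfold pe
    split_ifs with hon hm
    · exact phi_ge hΦ hB (h4 a (hS ha) a' (hS ha') t hm hon)
    · linarith
    · linarith
  set S0 := S.filter fun a => β a = b₀ with hS0
  set S1 := S.filter fun a => ¬β a = b₀ with hS1
  have hsplit : ∀ f : α → ℝ, ∑ a ∈ S, f a = ∑ a ∈ S0, f a + ∑ a ∈ S1, f a :=
    fun f => (Finset.sum_filter_add_sum_filter_not _ _ _).symm
  have hcard1 : (S1.card : ℝ) ≤ ((W.filter fun a => β a ≠ b₀).card : ℝ) := by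
    exact_mod_cast Finset.card_le_card (Finset.filter_subset_filter _ hS)
  have hcard0 : (S0.card : ℝ) ≤ S.card := by
    exact_mod_cast Finset.card_le_card (Finset.filter_subset _ _)
  have hcardS1 : (0 : ℝ) ≤ S1.card := Nat.cast_nonneg _
  -- the ordinary particles
  have hord : -(2 * B * S0.card) ≤ ∑ a ∈ S0, ∑ a' ∈ S0, pe Φ ε β x a a' t := by
    have hon : ∀ a ∈ S0, ∀ a' ∈ S0, a ≠ a' → On ε β x a a' := by
      intro a ha a' ha' hne
      rw [hS0, Finset.mem_filter] at ha ha'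
      unfold On
      rw [ha.2, ha'.2, max_self, h2.pre a b₀ ha.2.ge, h2.pre a' b₀ ha'.2.ge]
      exact hexcl a (hS ha.1) a' (hS ha'.1) hne ha.2 ha'.2
    have hb : ∀ a ∈ S0, ∀ a' ∈ S0, max (β a) (β a') ≤ t := by
      intro a ha a' ha'
      rw [hS0, Finset.mem_filter] at ha ha'
      exact max_le (ht a ha.1) (ht a' ha'.1)
    have e1 : ∑ a ∈ S0, ∑ a' ∈ S0, pe Φ ε β x a a' t =
        ∑ a ∈ S0, ∑ a' ∈ S0.erase a, Φ (ε⁻¹ • ((x t a).1 - (x t a').1)) := by
      refine Finset.sum_congr rfl fun a ha => ?_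
      rw [← Finset.add_sum_erase S0 _ ha]
      have e2 : pe Φ ε β x a a t = 0 := by
        unfold pe
        rw [if_neg]
        unfold On
        rw [sub_self, norm_zero, not_le]
        exact hε
      rw [e2, zero_add]
      refine Finset.sum_congr rfl fun a' ha' => ?_
      rw [Finset.mem_erase] at ha'
      unfold pe
      rw [if_pos (hon a ha a' ha'.2 ha'.1.symm), if_pos (hb a ha a' ha'.2)]
    rw [e1]
    -- enumerate
    set e := S0.equivFin with he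
    set y : Fin S0.card → E3 := fun i => ε⁻¹ • (x t (e.symm i).1).1 with hy
    have e3 : ∑ a ∈ S0, ∑ a' ∈ S0.erase a, Φ (ε⁻¹ • ((x t a).1 - (x t a').1)) =
        2 * pairTot Φ y := by
      rw [← pairTot_double hΦ]
      rw [← Finset.sum_coe_sort S0, ← e.symm.sum_comp]
      refine Finset.sum_congr rfl fun i _ => ?_
      have e4 : S0.erase (e.symm i).1 = (Finset.univ.erase i).image fun j => (e.symm j).1 := by
        ext a
        rw [Finset.mem_erase, Finset.mem_image]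
        constructor
        · rintro ⟨hne, ha⟩
          refine ⟨e ⟨a, ha⟩, ?_, by rw [e.symm_apply_apply]⟩
          rw [Finset.mem_erase]
          refine ⟨fun h => hne ?_, Finset.mem_univ _⟩
          rw [← h, e.symm_apply_apply]
        · rintro ⟨j, hj, rfl⟩
          rw [Finset.mem_erase] at hj
          exact ⟨fun h => hj.1 (e.symm.injective (Subtype.ext h)), (e.symm j).2⟩
      rw [e4, Finset.sum_image (fun a _ b _ hab => e.symm.injective (Subtype.ext hab))]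
      refine Finset.sum_congr rfl fun j _ => ?_
      rw [hy, smul_sub]
    rw [e3]
    have key : -(B * S0.card) ≤ pairTot Φ y := by
      rcases hΦ.regular with hreg | ⟨-, hsing, -⟩
      · exact hB.of_continuous hreg.continuous _
      · have hns : ¬ContDiff ℝ 2 Φ := by
          intro hc
          have h5 : Tendsto Φ (𝓝[≠] 0) (𝓝 (Φ 0)) :=
            (hc.continuous.tendsto 0).mono_left nhdsWithin_le_nhds
          exact not_tendsto_nhds_of_tendsto_atTop hsing _ h5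
        refine hB.2 _ _ ?_
        intro i j hij
        by_contra hne
        have h6 : (e.symm i).1 ≠ (e.symm j).1 := fun h => hne (e.symm.injective (Subtype.ext h))
        rcases h4 _ (hS (Finset.mem_filter.1 (e.symm i).2).1) _
          (hS (Finset.mem_filter.1 (e.symm j).2).1) t (hb _ (e.symm i).2 _ (e.symm j).2)
          (hon _ (e.symm i).2 _ (e.symm j).2 h6) with h7 | h7
        · exact hns h7
        · apply h7
          simp only [hy] at hij
          rw [smul_sub, hij, sub_self]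
    linarith
  -- the other pairs
  have hA : ∀ f : α → α → ℝ, ∑ a ∈ S, ∑ a' ∈ S, f a a' = ∑ a ∈ S0, ∑ a' ∈ S0, f a a' +
      ∑ a ∈ S0, ∑ a' ∈ S1, f a a' + ∑ a ∈ S1, ∑ a' ∈ S, f a a' := by
    intro f
    rw [hsplit, ← Finset.sum_add_distrib]
    congr 1
    exact Finset.sum_congr rfl fun a _ => hsplit _
  have h01 : -(2 * B * S0.card * S1.card) ≤ ∑ a ∈ S0, ∑ a' ∈ S1, pe Φ ε β x a a' t := by
    have : ∑ a ∈ S0, ∑ a' ∈ S1, (-(2 * B)) ≤ ∑ a ∈ S0, ∑ a' ∈ S1, pe Φ ε β x a a' t :=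
      Finset.sum_le_sum fun a ha => Finset.sum_le_sum fun a' ha' =>
        hpair a (Finset.mem_filter.1 ha).1 a' (Finset.mem_filter.1 ha').1
    simp only [Finset.sum_const, nsmul_eq_mul] at this
    linarith
  have h1S : -(2 * B * S1.card * S.card) ≤ ∑ a ∈ S1, ∑ a' ∈ S, pe Φ ε β x a a' t := by
    have : ∑ a ∈ S1, ∑ a' ∈ S, (-(2 * B)) ≤ ∑ a ∈ S1, ∑ a' ∈ S, pe Φ ε β x a a' t :=
      Finset.sum_le_sum fun a ha => Finset.sum_le_sum fun a' ha' =>
        hpair a (Finset.mem_filter.1 ha).1 a' ha'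
    simp only [Finset.sum_const, nsmul_eq_mul] at this
    linarith
  have htot := hA fun a a' => pe Φ ε β x a a' t
  unfold EnS
  have hSc : (0 : ℝ) ≤ S.card := Nat.cast_nonneg _
  set k : ℝ := ((W.filter fun a => β a ≠ b₀).card : ℝ) with hk
  have i1 : B * S0.card * S1.card ≤ B * k * S.card := by
    have := mul_le_mul hcard0 hcard1 hcardS1 hSc
    nlinarith
  have i2 : B * S1.card * S.card ≤ B * k * S.card := by
    have := mul_le_mul_of_nonneg_right hcard1 hSc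
    nlinarith
  have i3 : B * S0.card ≤ B * S.card := mul_le_mul_of_nonneg_left hcard0 hB0
  nlinarith

end real

end Vale.Agent.P119.EN
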